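import Vale.Agent.P073.LOC.Spec752

/-!
# P073, block LOC, rank 1: the net output and the collapse in the direction `1` (helper865)
-/

namespace Vale.Agent.P073.LOC

open MeasureTheory Set Filter Topology Metric Vale.Agent.P073.St
open Vale.Agent.P073.SQ (ev cube Cells)
open Vale.Agent.P073.AB (cl Idx pt edge eInt squ tiles EdgeOf)
open scoped ContDiff ENNReal

/-- The output of the net (no collapse, no plates), coarse generation `n`, fine generation `m`: the
derivative of the diffeomorphism `h` is close to `L` along ALL edges of generation `m` in the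
core. -/
structure Net1 (p C δ : ℝ) (n m : ℕ) (L : V →L[ℝ] V) (Λ : Set V) (f h : V → V) (v : V) :
    Prop where
  org : ∀ i, 0 ≤ v i ∧ v i < 1 / 2 ^ n
  diffeo : IsDiffeo Q1 Λ h
  close : BdClose Q1 f h
  fine : ∀ e : Idx × Fin 3, e.1.1 = m → edge v e ⊆ core v n →
    eInt v e (fun x => ENNReal.ofReal (‖fderiv ℝ h x (ev e.2) - L (ev e.2)‖ ^ p)) ≤
      ENNReal.ofReal δ
  out : ∑' e : {e : Idx × Fin 3 // (∃ q ∈ tiles Q1 n v, EdgeOf e q) ∧ ¬ edge v e ⊆ core v n},
    ENNReal.ofReal ((1 / 2 ^ e.1.1.1) ^ 2) * gInt p v h e.1 ≤ ENNReal.ofReal (C / 2 ^ n)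

/-- (NET1) the net output exists (any `L`); owner helper114 -/
def SpecNet1 (p : ℝ) (L : V →L[ℝ] V) : Prop :=
  ∃ C > 0, ∀ n m : ℕ, 3 ≤ n → n + 2 ≤ m → ∀ δ > 0, ∃ κ > 0,
    ∀ (Λ : Set V) (f : V → V) (F : V → Mat), Near p κ L Λ f F → ∃ v h, Net1 p C δ n m L Λ f h v

/-- (COLL1) the collapse in the direction `1` and the planar squeezes in the middle planes; owner
helper865 -/
def SpecColl1 : Prop :=
  ∀ (p : ℝ) (L : V →L[ℝ] V), 1 ≤ p → p < 2 → L (ev 1) = 0 → L (ev 2) = 0 →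
    SpecNet1 p L → SpecSec p L

end Vale.Agent.P073.LOC
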