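import Vale.Agent.P073.MathlibUsed

/-!
# P073, block LOC, rank one: the choice of the small numbers
-/

namespace Vale.Agent.P073.LOC560.Alg

/-- (a) -/
theorem exists_gen (C A ε : ℝ) (hC : 0 ≤ C) (hA : 0 ≤ A) (hε : 0 < ε) (m : ℕ) :
    ∃ M : ℕ, m + 2 ≤ M ∧ 2 ^ (m + 1) * ((16 * C + 2) * A * (1 / 2 ^ M)) ≤ ε / 4 := by
  set b : ℝ := 2 ^ (m + 1) * ((16 * C + 2) * A) with hb
  have hb0 : 0 ≤ b := by positivity
  obtain ⟨k, hk⟩ := exists_pow_lt_of_lt_one (show (0:ℝ) < ε / 4 / (b + 1) by positivity)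
    (show (1 / 2 : ℝ) < 1 by norm_num)
  refine ⟨k + (m + 2), by omega, ?_⟩
  have h1 : (1 : ℝ) / 2 ^ (k + (m + 2)) ≤ (1 / 2) ^ k := by
    rw [one_div_pow]
    exact one_div_le_one_div_of_le (by positivity)
      (pow_le_pow_right₀ (by norm_num) (by omega))
  have h2 : (1 : ℝ) / 2 ^ (k + (m + 2)) ≤ ε / 4 / (b + 1) := h1.trans hk.le
  have h3 : (0 : ℝ) ≤ 1 / 2 ^ (k + (m + 2)) := by positivity
  calc 2 ^ (m + 1) * ((16 * C + 2) * A * (1 / 2 ^ (k + (m + 2))))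
      = b * (1 / 2 ^ (k + (m + 2))) := by rw [hb]; ring
    _ ≤ (b + 1) * (ε / 4 / (b + 1)) := by
        refine mul_le_mul (by linarith) h2 h3 (by linarith)
    _ = ε / 4 := by field_simp

/-- one small number for several linear conditions -/
theorem exists_small {ι : Type*} (s : Finset ι) (c b : ι → ℝ) (hc : ∀ i ∈ s, 0 ≤ c i)
    (hb : ∀ i ∈ s, 0 < b i) : ∃ δ > 0, ∀ i ∈ s, c i * δ ≤ b i := by
  classical
  induction s using Finset.induction_on with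
  | empty => exact ⟨1, one_pos, by simp⟩
  | insert i s hi ih =>
    obtain ⟨δ, hδ, h⟩ := ih (fun j hj => hc j (Finset.mem_insert_of_mem hj))
      (fun j hj => hb j (Finset.mem_insert_of_mem hj))
    have hci := hc i (Finset.mem_insert_self i s)
    have hbi := hb i (Finset.mem_insert_self i s)
    refine ⟨min δ (b i / (c i + 1)), lt_min hδ (by positivity), fun j hj => ?_⟩
    rcases Finset.mem_insert.1 hj with rfl | hj
    · calc c j * min δ (b j / (c j + 1)) ≤ (c j + 1) * (b j / (c j + 1)) := by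
            refine mul_le_mul (by linarith) (min_le_right _ _)
              (le_min hδ.le (by positivity)) (by positivity)
        _ = b j := by field_simp
    · exact (mul_le_mul_of_nonneg_left (min_le_left _ _)
        (hc j (Finset.mem_insert_of_mem hj))).trans (h j hj)

/-- (b) -/
theorem exists_delta (K₁ C A ε : ℝ) (hK : 0 ≤ K₁) (hC : 0 ≤ C) (hA : 0 ≤ A) (hε : 0 < ε)
    (n m M : ℕ) (hM : m ≤ M) : ∃ δ > 0, ∀ B₀, B₀ = 2 * δ + 2 * (1 / 2 ^ M * A) + K₁ * δ →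
      2 ^ (M - m) * (B₀ + δ) ≤ (2 * A + 1) / 2 ^ m ∧
      2 ^ (M - m) * (2 * δ) ≤ ε ∧
      δ ≤ 1 / 2 ^ n ∧
      2 ^ M * (4 ^ M * ((1 / 2 ^ M) ^ 2 * δ + 2 * δ)) ≤ ε / 4 ∧
      2 ^ (m + 1) * 4 ^ M * (2 * C * ((1 / 2 ^ M) ^ 2 * (4 * (B₀ + δ))) + 2 * δ +
        2 * A * (1 / 2 ^ M) ^ 3) ≤ ε / 4 + 2 ^ (m + 1) * ((16 * C + 2) * A * (1 / 2 ^ M)) := by
  obtain ⟨δ, hδ, h⟩ := exists_small (Finset.univ : Finset (Fin 5))
    ![2 ^ (M - m) * (3 + K₁), 2 ^ (M - m) * 2, 1, 2 ^ M * (4 ^ M * ((1 / 2 ^ M) ^ 2 + 2)),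
      2 ^ (m + 1) * (8 * C * (3 + K₁) + 2 * 4 ^ M)]
    ![1 / 2 ^ m, ε, 1 / 2 ^ n, ε / 4, ε / 4]
    (by
      intro i _
      fin_cases i
      · show (0:ℝ) ≤ 2 ^ (M - m) * (3 + K₁)
        positivity
      · show (0:ℝ) ≤ 2 ^ (M - m) * 2
        positivity
      · show (0:ℝ) ≤ 1
        positivity
      · show (0:ℝ) ≤ 2 ^ M * (4 ^ M * ((1 / 2 ^ M) ^ 2 + 2))
        positivity
      · show (0:ℝ) ≤ 2 ^ (m + 1) * (8 * C * (3 + K₁) + 2 * 4 ^ M)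
        positivity)
    (by
      intro i _
      fin_cases i
      · show (0:ℝ) < 1 / 2 ^ m
        positivity
      · exact hε
      · show (0:ℝ) < 1 / 2 ^ n
        positivity
      · show (0:ℝ) < ε / 4
        positivity
      · show (0:ℝ) < ε / 4
        positivity)
  have h0 : 2 ^ (M - m) * (3 + K₁) * δ ≤ 1 / 2 ^ m := h 0 (Finset.mem_univ _)
  have h1 : 2 ^ (M - m) * 2 * δ ≤ ε := h 1 (Finset.mem_univ _)
  have h2 : 1 * δ ≤ 1 / 2 ^ n := h 2 (Finset.mem_univ _)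
  have h3 : 2 ^ M * (4 ^ M * ((1 / 2 ^ M) ^ 2 + 2)) * δ ≤ ε / 4 := h 3 (Finset.mem_univ _)
  have h4 : 2 ^ (m + 1) * (8 * C * (3 + K₁) + 2 * 4 ^ M) * δ ≤ ε / 4 := h 4 (Finset.mem_univ _)
  have hMm : (2:ℝ) ^ M = 2 ^ m * 2 ^ (M - m) := by rw [← pow_add]; congr 1; omega
  have h4M : (4:ℝ) ^ M = 2 ^ M * 2 ^ M := by rw [← mul_pow]; norm_num
  have hM0 : (0:ℝ) < 2 ^ M := by positivity
  have hm0 : (0:ℝ) < 2 ^ m := by positivity
  have hMm0 : (0:ℝ) < 2 ^ (M - m) := by positivity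
  refine ⟨δ, hδ, fun B₀ hB => ⟨?_, by linarith, by linarith, by linarith, ?_⟩⟩
  · have e1 : 2 ^ (M - m) * (B₀ + δ) = 2 ^ (M - m) * (3 + K₁) * δ + 2 * A / 2 ^ m := by
      rw [hB, hMm]; field_simp; ring
    rw [e1, add_div]
    linarith
  · have e1 : 2 ^ (m + 1) * 4 ^ M * (2 * C * ((1 / 2 ^ M) ^ 2 * (4 * (B₀ + δ))) + 2 * δ +
        2 * A * (1 / 2 ^ M) ^ 3) = 2 ^ (m + 1) * (8 * C * (3 + K₁) + 2 * 4 ^ M) * δ +
        2 ^ (m + 1) * ((16 * C + 2) * A * (1 / 2 ^ M)) := by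
      rw [hB, h4M]; field_simp; ring
    rw [e1]
    linarith

end Vale.Agent.P073.LOC560.Alg
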