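import Vale.Agent.P073.LOC865.Lim
import Vale.Agent.P073.AB.Sum308b

/-!
# P073, block LOC, rank 1: bounds for large `N` on edges and squares
-/

open Set Metric Topology Filter MeasureTheory
open scoped ENNReal ContDiff

namespace P073.LOC865

open Vale.Agent.P073.St (V IsDiffeo)
open Vale.Agent.P073.SQ (ev cube SuppDiffeo dE faceE edgesE)
open Vale.Agent.P073.AB (Idx pt edge eInt squ sqE)
open Vale.Agent.P073.AB.S293 (gam eInt_mono eInt_const_mul eInt_const eInt_eq eInt_add)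
open Vale.Agent.P073.LR (nu mu lam AffNear)
open Vale.Agent.P073.LOC (core Q1 mid gInt)

/-- the data of the net diffeomorphism -/
structure Dat (P : Par) (p δ : ℝ) (L : V →L[ℝ] V) (G : V → V) : Prop where
  hp1 : 1 ≤ p
  hp2 : p < 2
  L1 : L (ev 1) = 0
  L2 : L (ev 2) = 0
  smooth : ContDiffOn ℝ 1 G Q1
  δ0 : 0 < δ
  fine : ∀ e : Idx × Fin 3, e.1.1 = P.M → edge P.v e ⊆ core P.v P.n →
    eInt P.v e (fun x => ENNReal.ofReal (‖fderiv ℝ G x (ev e.2) - L (ev e.2)‖ ^ p)) ≤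
      ENNReal.ofReal δ

/-- a limit is eventually bounded -/
theorem eventually_of_lim {f : ℕ → ℝ≥0∞} {lm : ℝ≥0∞} (h : Tendsto f atTop (𝓝 lm)) {b η : ℝ}
    (hb : 0 ≤ b) (hη : 0 < η) (hlm : lm ≤ ENNReal.ofReal b) :
    ∀ᶠ N in atTop, f N ≤ ENNReal.ofReal (b + η) := by
  have h1 : lm < ENNReal.ofReal (b + η) := by
    refine hlm.trans_lt ?_
    rw [ENNReal.ofReal_lt_ofReal_iff (by linarith)]
    linarith
  exact (h.eventually (gt_mem_nhds h1)).mono fun N hN => le_of_lt hN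

namespace Par

variable (P : Par) {S : ℕ → V → V} {B p δ : ℝ} {L : V →L[ℝ] V} {G : V → V}

/-- constant of the layer edges -/
noncomputable def K1 (p : ℝ) : ℝ := ((P.k : ℝ) + 1) ^ p * (P.k + 1)

/-- bound of the energy of a fine edge -/
noncomputable def B0 (p δ : ℝ) (L : V →L[ℝ] V) : ℝ :=
  2 * δ + 2 * (P.a * ‖L (ev 0)‖ ^ p) + P.K1 p * δ

theorem K1_pos (p : ℝ) : 0 < P.K1 p := by
  unfold K1
  have : (0:ℝ) ≤ P.k := Nat.cast_nonneg _
  positivity

theorem B0_nonneg (hδ : 0 < δ) : 0 ≤ P.B0 p δ L := by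
  unfold B0
  have := P.K1_pos p
  have := P.a_pos
  positivity

theorem B0_ge (hδ : 0 < δ) : δ ≤ P.B0 p δ L := by
  unfold B0
  have h1 := mul_pos (P.K1_pos p) hδ
  have h2 : 0 ≤ P.a * ‖L (ev 0)‖ ^ p := mul_nonneg P.a_pos.le (by positivity)
  linarith

/-- all fine edges of the core -/
theorem edge_bound (D : Dat P p δ L G) (h : P.Sq S B) {e : Idx × Fin 3} (he1 : e.1.1 = P.M)
    (he : edge P.v e ⊆ core P.v P.n) : ∀ᶠ N in atTop, gInt p P.v (G ∘ S N) e ≤
      ENNReal.ofReal ((if e.2 = 2 then δ else P.B0 p δ L) + δ) := by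
  obtain ⟨⟨g, u⟩, j⟩ := e
  have he1' : g = P.M := he1
  subst he1'
  have hp0 : 0 < p := by linarith [D.hp1]
  have hsub : ∀ N, gInt p P.v (G ∘ S N) ((P.M, u), j) = eInt P.v ((P.M, u), j)
      (fun x => ENNReal.ofReal (‖fderiv ℝ (G ∘ S N) x (ev j) - 0‖ ^ p)) := by
    intro N
    unfold gInt
    simp only [sub_zero]
  simp only [hsub]
  by_cases hj : j = 1
  · subst hj
    obtain ⟨lm, h1, h2⟩ := P.lim_one h hp0 D.smooth he (δ := ENNReal.ofReal δ) fun u' hu' => by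
      have := D.fine ((P.M, u'), 1) rfl hu'
      simpa only [D.L1] using this
    have h3 : lm ≤ ENNReal.ofReal (P.K1 p * δ) := by
      refine h2.trans (le_of_eq ?_)
      rw [← ENNReal.ofReal_natCast, ← ENNReal.ofReal_mul (by positivity),
        ← ENNReal.ofReal_mul (by positivity)]
      congr 1
      unfold K1
      push_cast
      ring
    have h4 : P.K1 p * δ ≤ (if (1 : Fin 3) = 2 then δ else P.B0 p δ L) := by
      rw [if_neg (by decide)]
      unfold B0
      have h5 : 0 ≤ P.a * ‖L (ev 0)‖ ^ p := mul_nonneg P.a_pos.le (by positivity)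
      linarith [D.δ0]
    exact eventually_of_lim h1 ((mul_pos (P.K1_pos p) D.δ0).le.trans h4) D.δ0
      (h3.trans (ENNReal.ofReal_le_ofReal h4))
  · obtain ⟨h1, h2⟩ := P.lim_ne h hp0 D.smooth hj he 0
    have h3 := D.fine ((P.M, Function.update u 1 (P.tg (u 1))), j) rfl h2
    by_cases hj2 : j = 2
    · subst hj2
      rw [if_pos rfl]
      refine eventually_of_lim h1 D.δ0.le D.δ0 ?_
      simpa only [D.L2] using h3
    · rw [if_neg hj2]
      have hj0 : j = 0 := by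
        have : ∀ j : Fin 3, j ≠ 1 → j ≠ 2 → j = 0 := by decide
        exact this j hj hj2
      subst hj0
      refine eventually_of_lim h1 (P.B0_nonneg D.δ0) D.δ0 ?_
      have h4 : eInt P.v ((P.M, Function.update u 1 (P.tg (u 1))), 0)
          (fun x => ENNReal.ofReal (‖fderiv ℝ G x (ev 0) - 0‖ ^ p)) ≤
          eInt P.v ((P.M, Function.update u 1 (P.tg (u 1))), 0) (fun x =>
            2 * ENNReal.ofReal (‖fderiv ℝ G x (ev 0) - L (ev 0)‖ ^ p) +
            2 * ENNReal.ofReal (‖L (ev 0)‖ ^ p)) := by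
        refine eInt_mono _ _ fun x => ?_
        rw [sub_zero]
        exact Vale.Agent.P073.AB.S293.ofReal_pow_le D.hp1 D.hp2 _ _
      refine h4.trans ?_
      rw [eInt_add _ _ _ _ aemeasurable_const, eInt_const_mul _ _ _ (by norm_num), eInt_const]
      have e2 : (2:ℝ≥0∞) = ENNReal.ofReal 2 := by norm_num
      have hpa : (0:ℝ) < 1 / 2 ^ P.M := by positivity
      calc 2 * eInt P.v ((P.M, Function.update u 1 (P.tg (u 1))), 0)
              (fun x => ENNReal.ofReal (‖fderiv ℝ G x (ev 0) - L (ev 0)‖ ^ p)) +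
            ENNReal.ofReal (1 / 2 ^ P.M) * (2 * ENNReal.ofReal (‖L (ev 0)‖ ^ p))
          ≤ 2 * ENNReal.ofReal δ +
            ENNReal.ofReal (1 / 2 ^ P.M) * (2 * ENNReal.ofReal (‖L (ev 0)‖ ^ p)) := by
            gcongr
        _ = ENNReal.ofReal (2 * δ + 1 / 2 ^ P.M * (2 * ‖L (ev 0)‖ ^ p)) := by
            have hδ0 := D.δ0
            rw [e2, ← ENNReal.ofReal_mul (by norm_num), ← ENNReal.ofReal_mul (by norm_num),
              ← ENNReal.ofReal_mul hpa.le, ← ENNReal.ofReal_add (by positivity) (by positivity)]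
        _ ≤ _ := by
            apply ENNReal.ofReal_le_ofReal
            unfold B0 a
            have := mul_pos (P.K1_pos p) D.δ0
            have e3 : (1:ℝ) / 2 ^ P.M * (2 * ‖L (ev 0)‖ ^ p) = 2 * (1 / 2 ^ P.M * ‖L (ev 0)‖ ^ p) := by
              ring
            rw [e3]
            linarith

theorem B0_ge_K (hδ : 0 < δ) : (if (2:Fin 3) = 2 then δ else P.B0 p δ L) ≤ P.B0 p δ L := by
  rw [if_pos rfl]; exact P.B0_ge hδ

/-- the squares of the core -/
theorem layer_bound (D : Dat P p δ L G) (h : P.Sq S B) {u : Fin 3 → ℤ}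
    (hu : squ P.v ((P.M, u), 2) ⊆ core P.v P.n) : ∀ᶠ N in atTop,
      edgesE p (G ∘ S N) (Vale.Agent.P073.AB.P86.sc P.v ((P.M, u), 2)) 2 (1 / 2 / 2 ^ P.M) ≤
        ENNReal.ofReal (P.a ^ 2 * (4 * (P.B0 p δ L + δ))) := by
  have h1 : ∀ᶠ N in atTop, ∀ e ∈ sqE ((P.M, u), 2), gInt p P.v (G ∘ S N) e ≤
      ENNReal.ofReal (P.B0 p δ L + δ) := by
    rw [Filter.eventually_all_finset]
    intro e he
    have he' := Vale.Agent.P073.AB.mem_sqE.1 he
    have h2 : edge P.v e ⊆ core P.v P.n :=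
      (Vale.Agent.P073.AB.S308.edge_sub_squ he').trans hu
    have h3 := P.edge_bound D h (e := e) he'.1 h2
    filter_upwards [h3] with N hN
    refine hN.trans (ENNReal.ofReal_le_ofReal ?_)
    split_ifs
    · linarith [P.B0_ge (p := p) (L := L) D.δ0]
    · exact le_refl _
  filter_upwards [h1] with N hN
  have h4 := Vale.Agent.P073.AB.S293.edgesE_eq p (G ∘ S N) P.v ((P.M, u), 2)
  have h5 : edgesE p (G ∘ S N) (Vale.Agent.P073.AB.P86.sc P.v ((P.M, u), 2)) 2 (1 / 2 / 2 ^ P.M) =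
      ENNReal.ofReal ((1 / 2 ^ P.M) ^ 2) * ∑ e ∈ sqE ((P.M, u), 2), eInt P.v e
        (dE p (G ∘ S N) e.2) := h4
  rw [h5]
  have hb := P.B0_nonneg (p := p) (L := L) D.δ0
  have hδ0 := D.δ0
  have hcard : ∑ e ∈ sqE ((P.M, u), (2 : Fin 3)), eInt P.v e (dE p (G ∘ S N) e.2) ≤
      4 * ENNReal.ofReal (P.B0 p δ L + δ) := by
    have hmem : ∀ (c : Fin 3) (τ : ℤ), c ≠ 2 → (τ = 0 ∨ τ = 1) →
        Vale.Agent.P073.AB.sqEdge ((P.M, u), (2 : Fin 3)) c τ ∈ sqE ((P.M, u), (2 : Fin 3)) := by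
      intro c τ hc hτ
      unfold sqE
      rw [Finset.mem_biUnion]
      refine ⟨c, by simp [hc], ?_⟩
      rcases hτ with rfl | rfl <;> simp
    rw [Vale.Agent.P073.AB.sum_sqE]
    calc ∑ c ∈ Finset.univ.erase (2 : Fin 3),
          (eInt P.v (Vale.Agent.P073.AB.sqEdge ((P.M, u), 2) c 0)
            (dE p (G ∘ S N) (Vale.Agent.P073.AB.sqEdge ((P.M, u), 2) c 0).2) +
          eInt P.v (Vale.Agent.P073.AB.sqEdge ((P.M, u), 2) c 1)
            (dE p (G ∘ S N) (Vale.Agent.P073.AB.sqEdge ((P.M, u), 2) c 1).2))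
        ≤ ∑ _c ∈ Finset.univ.erase (2 : Fin 3), (ENNReal.ofReal (P.B0 p δ L + δ) +
          ENNReal.ofReal (P.B0 p δ L + δ)) := by
          refine Finset.sum_le_sum fun c hc => add_le_add ?_ ?_
          · exact hN _ (hmem c 0 (Finset.ne_of_mem_erase hc) (Or.inl rfl))
          · exact hN _ (hmem c 1 (Finset.ne_of_mem_erase hc) (Or.inr rfl))
      _ = 4 * ENNReal.ofReal (P.B0 p δ L + δ) := by
          rw [Finset.sum_const, Finset.card_erase_of_mem (Finset.mem_univ _), Finset.card_univ,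
            Fintype.card_fin, nsmul_eq_mul]
          push_cast
          ring
  calc ENNReal.ofReal ((1 / 2 ^ P.M) ^ 2) * ∑ e ∈ sqE ((P.M, u), 2), eInt P.v e
        (dE p (G ∘ S N) e.2)
      ≤ ENNReal.ofReal ((1 / 2 ^ P.M) ^ 2) * (4 * ENNReal.ofReal (P.B0 p δ L + δ)) := by gcongr
    _ = _ := by
        have e4 : (4:ℝ≥0∞) = ENNReal.ofReal 4 := by norm_num
        rw [e4, ← ENNReal.ofReal_mul (by norm_num), ← ENNReal.ofReal_mul (by positivity)]
        rfl

end Par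

end P073.LOC865
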