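import Vale.Agent.P073.LOC865.Seq
import Vale.Agent.P073.AB.Sum293b

/-!
# P073, block LOC, rank 1: limits of the energies on edges
-/

open Set Metric Topology Filter MeasureTheory
open scoped ENNReal ContDiff

namespace P073.LOC865

open Vale.Agent.P073.St (V IsDiffeo)
open Vale.Agent.P073.SQ (ev cube SuppDiffeo)
open Vale.Agent.P073.AB (Idx pt edge eInt)
open Vale.Agent.P073.AB.S293 (gam eInt_mono eInt_const_mul eInt_const eInt_eq eInt_add)
open Vale.Agent.P073.LR (nu mu lam AffNear)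
open Vale.Agent.P073.LOC (core Q1 mid)

theorem isOpen_Q1' : IsOpen Q1 := by
  have : Q1 = ⋂ i : Fin 3, {x : V | 0 < x i ∧ x i < 1} := by
    ext x; simp [Q1]
  rw [this]
  exact isOpen_iInter_of_finite fun i =>
    (isOpen_lt continuous_const (continuous_apply i)).inter
      (isOpen_lt (continuous_apply i) continuous_const)

theorem gam_mem {v : V} {e : Idx × Fin 3} {s : ℝ} (hs : s ∈ Icc (0:ℝ) 1) : gam v e s ∈ edge v e := by
  unfold edge gam
  rw [segment_eq_image']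
  exact ⟨s, hs, by rw [add_sub_cancel_left]⟩

theorem exists_gam {v : V} {e : Idx × Fin 3} {x : V} (hx : x ∈ edge v e) :
    ∃ s ∈ Icc (0:ℝ) 1, gam v e s = x := by
  unfold edge at hx
  rw [segment_eq_image'] at hx
  obtain ⟨s, hs, rfl⟩ := hx
  exact ⟨s, hs, by unfold gam; rw [add_sub_cancel_left]⟩

theorem continuous_gam (v : V) (e : Idx × Fin 3) : Continuous (gam v e) := by
  unfold gam; fun_prop

theorem isCompact_edge (v : V) (e : Idx × Fin 3) : IsCompact (edge v e) := by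
  have : edge v e = gam v e '' Icc 0 1 := by
    ext x
    constructor
    · intro hx
      obtain ⟨s, hs, rfl⟩ := exists_gam hx
      exact ⟨s, hs, rfl⟩
    · rintro ⟨s, hs, rfl⟩
      exact gam_mem hs
  rw [this]
  exact isCompact_Icc.image (continuous_gam v e)

theorem gam_apply (v : V) (e : Idx × Fin 3) (s : ℝ) (l : Fin 3) :
    gam v e s l = v l + (e.1.2 l + if l = e.2 then s else 0) / 2 ^ e.1.1 := by
  unfold gam
  by_cases h : l = e.2
  · subst h
    simp [pt, ev]; ring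
  · simp [pt, ev, h]

theorem ae_Ioo : ∀ᵐ s : ℝ ∂(volume.restrict (Icc (0:ℝ) 1)), s ∈ Ioo (0:ℝ) 1 := by
  rw [ae_restrict_iff' measurableSet_Icc]
  have h2 : ∀ᵐ s : ℝ, s ≠ 0 ∧ s ≠ 1 := by
    have := (Set.toFinite ({0, 1} : Set ℝ)).countable.ae_notMem volume
    filter_upwards [this] with s hs
    simpa using hs
  filter_upwards [h2] with s hs hs1
  exact ⟨lt_of_le_of_ne hs1.1 (Ne.symm hs.1), lt_of_le_of_ne hs1.2 hs.2⟩

namespace Par

variable (P : Par) {S : ℕ → V → V} {B : ℝ}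

theorem contDiffOn_comp {G : V → V} (hG : ContDiffOn ℝ 1 G Q1) (h : P.Sq S B) (N : ℕ) :
    ContDiffOn ℝ 1 (G ∘ S N) Q1 := by
  refine hG.comp ((h.diffeo N).smooth.of_le (by exact_mod_cast le_top)).contDiffOn fun x hx => ?_
  by_cases hxK : x ∈ P.KK
  · exact P.KK_sub ((h.diffeo N).mapsTo hxK)
  · rw [(h.diffeo N).supp x hxK]; exact hx

/-- the limit along a set of parameters -/
theorem tendsto_gen {α : Type*} [MeasurableSpace α] {μ : Measure α} (h : P.Sq S B) {p : ℝ}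
    (hp : 0 < p) {G : V → V} (hG : ContDiffOn ℝ 1 G Q1) {e : α → V} (he : Measurable e) {X : Set α}
    (hX : MeasurableSet X) (hμ : μ X ≠ ⊤) {Y : Set V} (hY : IsCompact Y) (hYQ : Y ⊆ Q1)
    (heY : ∀ a ∈ X, e a ∈ Y) (w A : V) {c : α → ℝ}
    (hc : ∀ᵐ a ∂(μ.restrict X), AffNear P.mm (e a) w (c a)) :
    Tendsto (fun N => ∫⁻ a in X, ENNReal.ofReal (‖fderiv ℝ (G ∘ S N) (e a) w - A‖ ^ p) ∂μ) atTop
      (𝓝 (∫⁻ a in X, ENNReal.ofReal
        (‖fderiv ℝ G (e a + P.mm (e a) • ev 1) (w + c a • ev 1) - A‖ ^ p) ∂μ)) := by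
  refine P073.LR.tendsto_energy (S := S) (B := B * ‖w‖) (A := fun _ => A) hp isOpen_Q1'
    hG (K' := P.KK ∪ Y) (P.isCompact_KK.union hY) (union_subset P.KK_sub hYQ)
    (fun N => (h.diffeo N).smooth.of_le (by exact_mod_cast le_top)) he hX hμ
    (fun N a _ => h.bd N _ _) (fun N a ha => ?_) ?_ ?_ aestronglyMeasurable_const ?_
  · by_cases hxK : e a ∈ P.KK
    · exact Or.inl ((h.diffeo N).mapsTo hxK)
    · rw [(h.diffeo N).supp _ hxK]; exact Or.inr (heY a ha)
  · exact Eventually.of_forall fun a => h.tendsto P (e a)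
  · filter_upwards [hc] with a ha using h.lim _ _ _ ha
  · rw [lintegral_const, Measure.restrict_apply_univ]
    exact ENNReal.mul_ne_top ENNReal.ofReal_ne_top hμ

theorem tendsto_edge (h : P.Sq S B) {p : ℝ} (hp : 0 < p) {G : V → V} (hG : ContDiffOn ℝ 1 G Q1)
    {e : Idx × Fin 3} (he : edge P.v e ⊆ Q1) (A : V) {c : ℝ → ℝ}
    (hc : ∀ᵐ s ∂(volume.restrict (Icc (0:ℝ) 1)), AffNear P.mm (gam P.v e s) (ev e.2) (c s)) :
    Tendsto (fun N => eInt P.v e (fun x => ENNReal.ofReal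
        (‖fderiv ℝ (G ∘ S N) x (ev e.2) - A‖ ^ p))) atTop
      (𝓝 (ENNReal.ofReal (1 / 2 ^ e.1.1) * ∫⁻ s in Icc (0:ℝ) 1, ENNReal.ofReal
        (‖fderiv ℝ G (gam P.v e s + P.mm (gam P.v e s) • ev 1) (ev e.2 + c s • ev 1) - A‖ ^ p))) := by
  have h1 := P.tendsto_gen h hp hG (μ := volume) (e := gam P.v e) (X := Icc (0:ℝ) 1)
    (continuous_gam P.v e).measurable measurableSet_Icc (by simp) (isCompact_edge P.v e) he
    (fun s hs => gam_mem hs) (ev e.2) A hc
  exact ENNReal.Tendsto.const_mul h1 (Or.inr ENNReal.ofReal_ne_top)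

/-- an edge which is shifted to an edge -/
theorem tendsto_shift (h : P.Sq S B) {p : ℝ} (hp : 0 < p) {G : V → V} (hG : ContDiffOn ℝ 1 G Q1)
    {e e' : Idx × Fin 3} (he : edge P.v e ⊆ Q1) (A : V)
    (hc : ∀ᵐ s ∂(volume.restrict (Icc (0:ℝ) 1)), AffNear P.mm (gam P.v e s) (ev e.2) 0)
    (hgen : e'.1.1 = e.1.1)
    (hsh : ∀ s ∈ Icc (0:ℝ) 1, gam P.v e s + P.mm (gam P.v e s) • ev 1 = gam P.v e' s) :
    Tendsto (fun N => eInt P.v e (fun x => ENNReal.ofReal
        (‖fderiv ℝ (G ∘ S N) x (ev e.2) - A‖ ^ p))) atTop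
      (𝓝 (eInt P.v e' (fun x => ENNReal.ofReal (‖fderiv ℝ G x (ev e.2) - A‖ ^ p)))) := by
  have h1 := P.tendsto_edge h hp hG he A hc
  have e1 : eInt P.v e' (fun x => ENNReal.ofReal (‖fderiv ℝ G x (ev e.2) - A‖ ^ p)) =
      ENNReal.ofReal (1 / 2 ^ e'.1.1) * ∫⁻ s in Icc (0:ℝ) 1,
        ENNReal.ofReal (‖fderiv ℝ G (gam P.v e' s) (ev e.2) - A‖ ^ p) := rfl
  rw [e1, hgen]
  convert h1 using 3
  refine setLIntegral_congr_fun measurableSet_Icc fun s hs => ?_
  rw [hsh s hs, zero_smul, add_zero]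

/-- an edge on which nothing moves -/
theorem tendsto_fix (h : P.Sq S B) {p : ℝ} (hp : 0 < p) {G : V → V} (hG : ContDiffOn ℝ 1 G Q1)
    {e : Idx × Fin 3} (he : edge P.v e ⊆ Q1) (A : V) (h0 : ∀ x ∈ edge P.v e, P.mm x = 0) :
    Tendsto (fun N => eInt P.v e (fun x => ENNReal.ofReal
        (‖fderiv ℝ (G ∘ S N) x (ev e.2) - A‖ ^ p))) atTop
      (𝓝 (eInt P.v e (fun x => ENNReal.ofReal (‖fderiv ℝ G x (ev e.2) - A‖ ^ p)))) := by
  refine P.tendsto_shift h hp hG he A ?_ rfl fun s hs => by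
    rw [h0 _ (gam_mem hs), zero_smul, add_zero]
  have hl : (0:ℝ) < 1 / 2 ^ e.1.1 := by positivity
  have h1 : ∀ᵐ s : ℝ ∂(volume.restrict (Icc (0:ℝ) 1)),
      ∃ c, AffNear P.mm (gam P.v e s) ((1 / 2 ^ e.1.1 : ℝ) • ev e.2) c := by
    have := (P.countable_aff (pt P.v e.1.1 e.1.2) ((1 / 2 ^ e.1.1 : ℝ) • ev e.2)).ae_notMem volume
    refine ae_restrict_of_ae ?_
    filter_upwards [this] with s hs
    by_contra hcon
    exact hs hcon
  filter_upwards [h1, ae_Ioo] with s ⟨c, hc⟩ hs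
  have h2 := AffNear.scale hl hc
  have h3 : c / (1 / 2 ^ e.1.1) = 0 := by
    refine AffNear.eq_zero h2 ⟨(1 / 2 ^ e.1.1) * min s (1 - s), mul_pos hl (lt_min hs.1 (by linarith [hs.2])),
      fun τ hτ => ?_⟩
    have e1 : gam P.v e s + τ • ev e.2 = gam P.v e (s + τ / (1 / 2 ^ e.1.1)) := by
      unfold gam
      rw [add_smul, smul_smul (τ / (1 / 2 ^ e.1.1)), div_mul_cancel₀ _ hl.ne', add_assoc]
    rw [e1]
    apply h0
    apply gam_mem
    have h4 : |τ / (1 / 2 ^ e.1.1)| < min s (1 - s) := by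
      rw [abs_div, abs_of_pos hl, div_lt_iff₀ hl, mul_comm]; exact hτ
    have h5 := abs_lt.1 h4
    have h6 := min_le_left s (1 - s)
    have h7 := min_le_right s (1 - s)
    constructor <;> linarith [h5.1, h5.2]
  rwa [h3] at h2

end Par

/-- an interval cut into pieces -/
theorem lintegral_Icc_le (g : ℝ → ℝ≥0∞) (c a : ℝ) (K : ℕ) :
    ∫⁻ x in Icc c (c + K * a), g x ≤
      (∑ j ∈ Finset.range K, ∫⁻ x in Icc (c + j * a) (c + (j + 1) * a), g x) := by
  induction K with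
  | zero =>
    simp
  | succ K ih =>
    rw [Finset.sum_range_succ]
    refine le_trans ?_ (add_le_add_left ih _)
    refine (lintegral_mono_set (t := Icc c (c + K * a) ∪ Icc (c + K * a) (c + (K + 1) * a))
      fun x hx => ?_).trans (lintegral_union_le _ _ _)
    have h1 := hx.2
    push_cast at h1
    rcases le_total x (c + K * a) with h | h
    · exact Or.inl ⟨hx.1, h⟩
    · exact Or.inr ⟨h, h1⟩

end P073.LOC865
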