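import Vale.Agent.P073.LOC865.Edge
import Vale.Agent.P073.LOC.Geo308d

/-!
# P073, block LOC, rank 1: the energy on the edges outside of the core (helper308)
-/

open Set Metric Topology Filter MeasureTheory
open scoped ENNReal ContDiff

namespace P073.LOC865

open Vale.Agent.P073.St (V IsDiffeo)
open Vale.Agent.P073.SQ (ev cube SuppDiffeo)
open Vale.Agent.P073.AB (Idx pt edge eInt tiles EdgeOf)
open Vale.Agent.P073.AB.S293 (gam eInt_mono)
open Vale.Agent.P073.LR (nu mu lam AffNear)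
open Vale.Agent.P073.LOC (core Q1 mid OE gInt)

namespace Par

variable (P : Par)

theorem dat : Vale.Agent.P073.LOC.G308.Dat P.v P.n P.m := ⟨P.hv, P.hn, P.hm⟩

/-- the collapse function vanishes on the outer edges -/
theorem mm_OE {e : Idx × Fin 3} (he : e ∈ OE P.v P.n) {x : V} (hx : x ∈ edge P.v e) :
    P.mm x = 0 := by
  have ht := P.t_pos
  have htT := P.t_le
  have hT := P.T_pos
  by_contra hcon
  obtain ⟨⟨i, hi, h1⟩, h2⟩ := P.of_mm_ne hcon
  have hi' := Finset.mem_Ico.1 hi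
  have g1 : (P.i0 : ℝ) * P.t ≤ i * P.t :=
    mul_le_mul_of_nonneg_right (by exact_mod_cast hi'.1) ht.le
  have g2 : ((i : ℝ) + 1) * P.t ≤ P.i1 * P.t := by
    refine mul_le_mul_of_nonneg_right ?_ ht.le
    have := hi'.2
    exact_mod_cast this
  rw [i0_t] at g1
  rw [i1_t] at g2
  obtain ⟨h3, h4⟩ := abs_lt.1 h1
  unfold d at h3 h4
  have e1 : (1:ℝ) / 2 ^ P.n = P.T := rfl
  have e2 : (2:ℝ) / 2 ^ P.n = 2 * P.T := by unfold T; ring
  have e3 : ((2:ℝ) ^ P.n - 3) / 2 ^ P.n = 1 - 3 * P.T := by unfold T; field_simp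
  have e4 : ((2:ℝ) ^ P.n - 2) / 2 ^ P.n = 1 - 2 * P.T := by unfold T; field_simp
  rcases Vale.Agent.P073.LOC.G308.awayK P.dat 1 he hx with ⟨l, hl, h5⟩ | h5 | h5 | ⟨z, h5⟩
  · have h6 := abs_lt.1 (h2 l hl)
    unfold q r at h6
    rw [e1, e4] at h5
    rcases h5 with h5 | h5
    · linarith [h6.1]
    · linarith [h6.2]
  · rw [e2] at h5
    linarith
  · rw [e3] at h5
    linarith
  · apply hcon
    apply P.mm_of_line (j := z * 2 ^ (P.m - P.n))
    rw [h5]
    unfold t
    have h : P.m = (P.m - P.n) + P.n := by have := P.hm; omega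
    have h2 : (2:ℝ) ^ P.m = 2 ^ (P.m - P.n) * 2 ^ P.n := by
      conv_lhs => rw [h, pow_add]
    rw [h2]
    push_cast
    field_simp

end Par

/-- the energy on an edge depends on the derivative on the edge only -/
theorem gInt_congr {p : ℝ} {v : V} {g h : V → V} {e : Idx × Fin 3}
    (H : ∀ x ∈ edge v e, g =ᶠ[𝓝 x] h) : gInt p v g e = gInt p v h e := by
  unfold gInt eInt
  congr 1
  refine setLIntegral_congr_fun measurableSet_Icc fun s hs => ?_
  have := H _ (gam_mem (v := v) (e := e) hs)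
  show ENNReal.ofReal (‖fderiv ℝ g (gam v e s) (ev e.2)‖ ^ p) =
    ENNReal.ofReal (‖fderiv ℝ h (gam v e s) (ev e.2)‖ ^ p)
  rw [this.fderiv_eq]

theorem out_bound (P : Par) {S : ℕ → V → V} {B p : ℝ} {G : V → V} (h : P.Sq S B) (hp : 0 < p)
    (hG : ContDiffOn ℝ 1 G Q1) {η : ℝ} (hη : 0 < η) :
    ∃ F : Finset (Idx × Fin 3), (∀ e ∈ F, e ∈ OE P.v P.n) ∧
      ∀ᶠ N in atTop, ∀ K : Set V, IsClosed K → K ⊆ P.KK → (∀ e ∈ F, Disjoint (edge P.v e) K) →
        ∀ g : V → V, (∀ x, x ∉ K → g =ᶠ[𝓝 x] G ∘ S N) →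
          ∑' e : {e : Idx × Fin 3 // (∃ q ∈ tiles Q1 P.n P.v, EdgeOf e q) ∧
              ¬ edge P.v e ⊆ core P.v P.n},
            ENNReal.ofReal ((1 / 2 ^ e.1.1.1) ^ 2) * gInt p P.v g e.1 ≤
          ∑' e : {e : Idx × Fin 3 // (∃ q ∈ tiles Q1 P.n P.v, EdgeOf e q) ∧
              ¬ edge P.v e ⊆ core P.v P.n},
            ENNReal.ofReal ((1 / 2 ^ e.1.1.1) ^ 2) * gInt p P.v G e.1 + ENNReal.ofReal η := by
  classical
  have hfin := Vale.Agent.P073.LOC.G308.q7fin P.dat P.KK_sub P.isCompact_KK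
  set F : Finset (Idx × Fin 3) := hfin.toFinset with hF
  have hFO : ∀ e ∈ F, e ∈ OE P.v P.n := fun e he => ((Set.Finite.mem_toFinset _).1 he).1
  set ε : ℝ≥0∞ := ENNReal.ofReal (η / (F.card + 1)) with hε
  have hε0 : ε ≠ 0 := by
    rw [hε, ne_eq, ENNReal.ofReal_eq_zero, not_le]
    positivity
  refine ⟨F, hFO, ?_⟩
  have hev : ∀ᶠ N in atTop, ∀ e ∈ F, gInt p P.v (G ∘ S N) e ≤ gInt p P.v G e + ε := by
    rw [Filter.eventually_all_finset]
    intro e he
    have hO := hFO e he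
    have hq := Vale.Agent.P073.LOC.G308.q7 P.dat hO
    have hlim := P.tendsto_fix h hp hG hq.1 0 (fun x hx => P.mm_OE hO hx)
    simp only [sub_zero] at hlim
    by_cases htop : gInt p P.v G e = ⊤
    · rw [htop]
      exact Eventually.of_forall fun N => by simp
    · have h1 : gInt p P.v G e < gInt p P.v G e + ε := ENNReal.lt_add_right htop hε0
      filter_upwards [(tendsto_order.1 hlim).2 _ h1] with N hN
      exact hN.le
  filter_upwards [hev] with N hN K hK hKK hFK g hg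
  -- pointwise bound
  have hpt : ∀ e : {e : Idx × Fin 3 // (∃ q ∈ tiles Q1 P.n P.v, EdgeOf e q) ∧
      ¬ edge P.v e ⊆ core P.v P.n},
      ENNReal.ofReal ((1 / 2 ^ e.1.1.1) ^ 2) * gInt p P.v g e.1 ≤
        ENNReal.ofReal ((1 / 2 ^ e.1.1.1) ^ 2) * gInt p P.v G e.1 +
          (fun e : Idx × Fin 3 => if e ∈ F then ε else 0) e.1 := by
    intro e
    have hO : e.1 ∈ OE P.v P.n := e.2
    by_cases heF : e.1 ∈ F
    · have h1 : gInt p P.v g e.1 = gInt p P.v (G ∘ S N) e.1 :=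
        gInt_congr fun x hx => hg x (Set.disjoint_left.1 (hFK _ heF) hx)
      simp only [if_pos heF]
      rw [h1]
      have hw : ENNReal.ofReal ((1 / 2 ^ e.1.1.1) ^ 2) ≤ 1 := by
        rw [ENNReal.ofReal_le_one]
        apply pow_le_one₀ (by positivity)
        rw [div_le_one (by positivity)]
        exact one_le_pow₀ (by norm_num)
      calc ENNReal.ofReal ((1 / 2 ^ e.1.1.1) ^ 2) * gInt p P.v (G ∘ S N) e.1
          ≤ ENNReal.ofReal ((1 / 2 ^ e.1.1.1) ^ 2) * (gInt p P.v G e.1 + ε) := by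
            gcongr
            exact hN _ heF
        _ = ENNReal.ofReal ((1 / 2 ^ e.1.1.1) ^ 2) * gInt p P.v G e.1 +
            ENNReal.ofReal ((1 / 2 ^ e.1.1.1) ^ 2) * ε := mul_add _ _ _
        _ ≤ ENNReal.ofReal ((1 / 2 ^ e.1.1.1) ^ 2) * gInt p P.v G e.1 + 1 * ε := by gcongr
        _ = _ := by rw [one_mul]
    · have hdis : ∀ x ∈ edge P.v e.1, x ∉ P.KK := by
        intro x hx hxK
        apply heF
        rw [hF, Set.Finite.mem_toFinset]
        exact ⟨hO, x, hx, hxK⟩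
      have h1 : gInt p P.v g e.1 = gInt p P.v G e.1 := by
        refine gInt_congr fun x hx => ?_
        have hxK := hdis x hx
        refine (hg x fun hc => hxK (hKK hc)).trans ?_
        have hopen : (P.KK)ᶜ ∈ 𝓝 x := P.isCompact_KK.isClosed.isOpen_compl.mem_nhds hxK
        filter_upwards [hopen] with y hy
        show G (S N y) = G y
        rw [(h.diffeo N).supp y hy]
      rw [h1]
      exact le_self_add
  refine (ENNReal.tsum_le_tsum hpt).trans ?_
  rw [ENNReal.tsum_add]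
  gcongr
  calc ∑' e : {e : Idx × Fin 3 // (∃ q ∈ tiles Q1 P.n P.v, EdgeOf e q) ∧
        ¬ edge P.v e ⊆ core P.v P.n}, (fun e : Idx × Fin 3 => if e ∈ F then ε else 0) e.1
      ≤ ∑' e : Idx × Fin 3, (if e ∈ F then ε else 0) :=
        ENNReal.tsum_comp_le_tsum_of_injective Subtype.val_injective _
    _ = ∑ e ∈ F, ε := by
        rw [tsum_eq_sum (s := F) (fun e he => if_neg he)]
        exact Finset.sum_congr rfl fun e he => if_pos he
    _ = ENNReal.ofReal (F.card * (η / (F.card + 1))) := by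
        rw [Finset.sum_const, nsmul_eq_mul, hε, ENNReal.ofReal_mul (by positivity),
          ENNReal.ofReal_natCast]
    _ ≤ ENNReal.ofReal η := by
        apply ENNReal.ofReal_le_ofReal
        rw [mul_div_assoc', div_le_iff₀ (by positivity)]
        nlinarith

end P073.LOC865
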