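import Vale.Agent.P073.LOC865.Mids2
import Vale.Agent.P073.LOC865.Out308

/-!
# P073, block LOC, rank 1: coarse edges and middle planes
-/

open Set Metric Topology Filter MeasureTheory
open scoped ENNReal ContDiff

namespace P073.LOC865

open Vale.Agent.P073.St (V IsDiffeo)
open Vale.Agent.P073.SQ (ev cube SuppDiffeo dE faceE edgesE)
open Vale.Agent.P073.AB (Idx pt edge eInt squ sqE subEdge)
open Vale.Agent.P073.AB.P86 (sc)
open Vale.Agent.P073.AB.S293 (gam eInt_mono eInt_const_mul eInt_const eInt_eq eInt_add)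
open Vale.Agent.P073.LOC (core Q1 mid gInt OE)
open Vale.Agent.P073.LOC560.Mid (grid mem_grid)

theorem edge_subEdge {v : V} {e : Idx × Fin 3} {d j : ℕ} (hj : j < 2 ^ d) :
    edge v (subEdge e d j) ⊆ edge v e := by
  intro x hx
  obtain ⟨s, hs, rfl⟩ := exists_gam hx
  have h1 : gam v (subEdge e d j) s = gam v e ((j + s) / 2 ^ d) := by
    funext l
    rw [gam_apply, gam_apply]
    by_cases hl : l = e.2
    · subst hl
      simp only [subEdge, if_true, pow_add]
      push_cast
      field_simp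
      ring
    · simp only [subEdge, hl, if_false, pow_add]
      push_cast
      field_simp
      ring
  rw [h1]
  apply gam_mem
  have hd : (0:ℝ) < 2 ^ d := by positivity
  have h2 : (j : ℝ) + 1 ≤ 2 ^ d := by exact_mod_cast hj
  have h3 : (0:ℝ) ≤ j := Nat.cast_nonneg j
  constructor
  · exact div_nonneg (by linarith [hs.1]) hd.le
  · rw [div_le_one hd]; linarith [hs.2]

theorem upd_squ {v : V} {M : ℕ} {u : Fin 3 → ℤ} {x : V}
    (hx : x ∈ cube (sc v ((M, u), 2)) (1 / 2 / 2 ^ M)) :
    Function.update x 2 (sc v ((M, u), 2) 2) ∈ squ v ((M, u), 2) := by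
  rw [← Vale.Agent.P073.AB.P86.mem_squ_iff]
  have hp : (0:ℝ) < 1 / 2 / 2 ^ M := by positivity
  refine ⟨Function.update_self .., fun l => ?_⟩
  by_cases hl : l = 2
  · subst hl
    rw [Function.update_self, sub_self, abs_zero]
    exact hp.le
  · rw [Function.update_of_ne hl]; exact hx l

theorem volume_cube (c : V) {ρ : ℝ} (hρ : 0 ≤ ρ) : volume (cube c ρ) = ENNReal.ofReal ((2 * ρ) ^ 3) := by
  have : cube c ρ = closedBall c ρ := by
    ext x
    rw [mem_closedBall, dist_pi_le_iff hρ]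
    rfl
  rw [this, Real.volume_pi_closedBall c hρ]
  simp

theorem germ_off {K : Set V} {s g : V → V} (h : SuppDiffeo K s) {x : V} (hx : x ∉ K) :
    g ∘ s =ᶠ[𝓝 x] g := by
  filter_upwards [h.compact.isClosed.isOpen_compl.mem_nhds hx] with y hy
  show g (s y) = g y
  rw [h.supp y hy]

/-- the deviation on a square of a layer -/
theorem face_dev {p : ℝ} (hp1 : 1 ≤ p) (hp2 : p < 2) (g : V → V) (L : V →L[ℝ] V)
    (hL1 : L (ev 1) = 0) (a : V) {ρ : ℝ} (hρ : 0 ≤ ρ) :
    ∑ j ∈ Finset.univ.erase (2 : Fin 3), ∫⁻ x in cube a ρ, ENNReal.ofReal (‖fderiv ℝ g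
        (Function.update x 2 (a 2)) (ev j) - L (ev j)‖ ^ p) ≤
      2 * faceE p g a 2 ρ + ENNReal.ofReal (2 * ‖L (ev 0)‖ ^ p * (2 * ρ) ^ 3) := by
  have hp0 : 0 < p := by linarith
  have hsum : (Finset.univ.erase (2 : Fin 3)) = {0, 1} := by decide
  have hupd : Measurable fun x : V => Function.update x 2 (a 2) := by
    rw [measurable_pi_iff]
    intro l
    by_cases hl : l = 2
    · subst hl; simp
    · simp only [Function.update_of_ne hl]; exact measurable_pi_apply l
  unfold faceE
  rw [hsum, Finset.sum_pair (by decide), Finset.sum_pair (by decide)]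
  have h0 : ∫⁻ x in cube a ρ, ENNReal.ofReal (‖fderiv ℝ g (Function.update x 2 (a 2)) (ev 0) -
      L (ev 0)‖ ^ p) ≤ 2 * (∫⁻ x in cube a ρ, dE p g 0 (Function.update x 2 (a 2))) +
        ENNReal.ofReal (2 * ‖L (ev 0)‖ ^ p * (2 * ρ) ^ 3) := by
    have hm : Measurable fun x => dE p g 0 (Function.update x 2 (a 2)) :=
      (Vale.Agent.P073.AB.S293.measurable_dE p g 0).comp hupd
    calc _ ≤ ∫⁻ x in cube a ρ, (2 * dE p g 0 (Function.update x 2 (a 2)) +
          2 * ENNReal.ofReal (‖L (ev 0)‖ ^ p)) := by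
          refine lintegral_mono fun x => ?_
          have := Vale.Agent.P073.AB.S293.ofReal_pow_le hp1 hp2
            (fderiv ℝ g (Function.update x 2 (a 2)) (ev 0) - L (ev 0)) (- L (ev 0))
          rw [sub_neg_eq_add, sub_add_cancel, norm_neg] at this
          exact this
      _ = _ := by
          rw [lintegral_add_left (hm.const_mul 2), lintegral_const_mul _ hm, lintegral_const,
            Measure.restrict_apply_univ, volume_cube a hρ]
          congr 1
          have e2 : (2:ℝ≥0∞) = ENNReal.ofReal 2 := by norm_num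
          rw [e2, ← ENNReal.ofReal_mul (by norm_num), ← ENNReal.ofReal_mul (by positivity)]
  have h1 : ∫⁻ x in cube a ρ, ENNReal.ofReal (‖fderiv ℝ g (Function.update x 2 (a 2)) (ev 1) -
      L (ev 1)‖ ^ p) ≤ 2 * (∫⁻ x in cube a ρ, dE p g 1 (Function.update x 2 (a 2))) := by
    rw [hL1]
    simp only [sub_zero]
    rw [two_mul]
    exact le_self_add
  calc _ ≤ _ := add_le_add h0 h1
    _ = _ := by ring

namespace Par

variable (P : Par)

theorem finite_fine : {e : Idx × Fin 3 | e.1.1 = P.M ∧ edge P.v e ⊆ core P.v P.n}.Finite := by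
  refine (((Fintype.piFinset fun _ : Fin 3 =>
    Finset.Icc (P.i0 * P.R) (P.i1 * P.R)).finite_toSet.prod (Set.finite_univ (α := Fin 3))).image
      (fun w => (((P.M, w.1), w.2) : Idx × Fin 3))).subset ?_
  rintro ⟨⟨g, u⟩, j⟩ ⟨h1, h2⟩
  have h1 : g = P.M := h1
  subst h1
  refine ⟨(u, j), ⟨?_, trivial⟩, rfl⟩
  rw [Finset.mem_coe, Fintype.mem_piFinset]
  intro l
  exact Finset.mem_Icc.2 ((P.edge_core.1 h2).1 l)

/-- coarse edges -/
theorem coarse_bound {p b : ℝ} {g : V → V} (hb : 0 ≤ b) {e : Idx × Fin 3}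
    (he1 : e.1.1 = P.m) (he : edge P.v e ⊆ core P.v P.n)
    (h : ∀ e' : Idx × Fin 3, e'.1.1 = P.M → edge P.v e' ⊆ core P.v P.n → e'.2 = e.2 →
      gInt p P.v g e' ≤ ENNReal.ofReal b) :
    gInt p P.v g e ≤ ENNReal.ofReal (2 ^ (P.M - P.m) * b) := by
  have h1 := Vale.Agent.P073.AB.S293.eInt_sub P.v e (P.M - P.m)
    (Vale.Agent.P073.AB.S293.measurable_dE p g e.2)
  refine (show gInt p P.v g e ≤ _ from h1).trans ?_
  calc ∑ j ∈ Finset.range (2 ^ (P.M - P.m)), eInt P.v (subEdge e (P.M - P.m) j) (dE p g e.2)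
      ≤ ∑ _j ∈ Finset.range (2 ^ (P.M - P.m)), ENNReal.ofReal b := by
        refine Finset.sum_le_sum fun j hj => ?_
        refine h (subEdge e (P.M - P.m) j) ?_ ((edge_subEdge (Finset.mem_range.1 hj)).trans he) rfl
        show e.1.1 + (P.M - P.m) = P.M
        have := P.hM
        omega
    _ = _ := by
        rw [Finset.sum_const, Finset.card_range, nsmul_eq_mul, ← ENNReal.ofReal_natCast,
          ← ENNReal.ofReal_mul (by positivity)]
        push_cast
        rfl

/-- the middle planes -/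
theorem sec_bound {p bs bl : ℝ} {g : V → V} {L : V →L[ℝ] V} {z : ℤ} (hbs : 0 ≤ bs) (hbl : 0 ≤ bl)
    (h : ∀ u ∈ grid P.n P.M z, ∑ j ∈ Finset.univ.erase (2 : Fin 3),
      ∫⁻ x in cube (sc P.v ((P.M, u), 2)) (1 / 2 / 2 ^ P.M), ENNReal.ofReal (‖fderiv ℝ g
        (Function.update x 2 (sc P.v ((P.M, u), 2) 2)) (ev j) - L (ev j)‖ ^ p) ≤
      ENNReal.ofReal (if lay P.R u then bl else bs)) :
    ∑ j ∈ Finset.univ.erase (2 : Fin 3), ∫⁻ x in core P.v P.n, ENNReal.ofReal
        (‖fderiv ℝ g (Function.update x 2 (mid P.v P.n z)) (ev j) - L (ev j)‖ ^ p) ≤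
      ENNReal.ofReal (2 ^ P.M * (4 ^ P.M * bs) + 2 ^ (P.m + 1) * 4 ^ P.M * bl) := by
  have hm := P.hm
  have hM := P.hM
  have hM1 : P.n + 1 ≤ P.M := by omega
  calc _ ≤ ∑ j ∈ Finset.univ.erase (2 : Fin 3), ENNReal.ofReal (2 ^ P.M) *
        ∑ u ∈ grid P.n P.M z, ∫⁻ x in cube (sc P.v ((P.M, u), 2)) (1 / 2 / 2 ^ P.M),
          ENNReal.ofReal (‖fderiv ℝ g (Function.update x 2 (sc P.v ((P.M, u), 2) 2)) (ev j) -
            L (ev j)‖ ^ p) := by
        refine Finset.sum_le_sum fun j _ => ?_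
        have h1 := Vale.Agent.P073.LOC560.Mid.mid_sum P.v P.n P.M z P.hn (by omega) _
          (measurable_fd p g (ev j) (L (ev j)))
        refine h1.trans (le_of_eq ?_)
        congr 1
        refine Finset.sum_congr rfl fun u hu => ?_
        rw [Vale.Agent.P073.LOC560.Mid.sc_two P.v hM1 hu]
    _ = ENNReal.ofReal (2 ^ P.M) * ∑ u ∈ grid P.n P.M z, ∑ j ∈ Finset.univ.erase (2 : Fin 3),
          ∫⁻ x in cube (sc P.v ((P.M, u), 2)) (1 / 2 / 2 ^ P.M), ENNReal.ofReal (‖fderiv ℝ g
            (Function.update x 2 (sc P.v ((P.M, u), 2) 2)) (ev j) - L (ev j)‖ ^ p) := by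
        rw [← Finset.mul_sum, Finset.sum_comm]
    _ ≤ ENNReal.ofReal (2 ^ P.M) * ∑ u ∈ grid P.n P.M z,
          ENNReal.ofReal (if lay P.R u then bl else bs) := by
        gcongr with u hu
        exact h u hu
    _ ≤ ENNReal.ofReal (2 ^ P.M) * (ENNReal.ofReal (2 * 2 ^ P.m * 2 ^ P.M * bl) +
          ENNReal.ofReal (4 ^ P.M * bs)) := by
        gcongr
        rw [← Finset.sum_filter_add_sum_filter_not (grid P.n P.M z) (lay P.R)]
        refine add_le_add ?_ ?_
        · have e1 : ∑ u ∈ (grid P.n P.M z).filter (lay P.R),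
              ENNReal.ofReal (if lay P.R u then bl else bs) =
              ∑ _u ∈ (grid P.n P.M z).filter (lay P.R), ENNReal.ofReal bl :=
            Finset.sum_congr rfl fun u hu => by rw [if_pos (Finset.mem_filter.1 hu).2]
          rw [e1, Finset.sum_const, nsmul_eq_mul, ← ENNReal.ofReal_natCast,
            ← ENNReal.ofReal_mul (by positivity)]
          apply ENNReal.ofReal_le_ofReal
          refine mul_le_mul_of_nonneg_right ?_ hbl
          have h5 := Vale.Agent.P073.LOC560.Mid.card_filter P.n P.m P.M z (by omega) (by omega)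
          have e2 : (grid P.n P.M z).filter (lay P.R) = (grid P.n P.M z).filter
              (fun u => (2 ^ (P.M - P.m) : ℤ) ∣ u 1 ∨ (2 ^ (P.M - P.m) : ℤ) ∣ u 1 + 1) :=
            Finset.filter_congr fun u _ => Iff.rfl
          rw [e2]
          exact h5
        · have e1 : ∑ u ∈ (grid P.n P.M z).filter (fun u => ¬ lay P.R u),
              ENNReal.ofReal (if lay P.R u then bl else bs) =
              ∑ _u ∈ (grid P.n P.M z).filter (fun u => ¬ lay P.R u), ENNReal.ofReal bs :=
            Finset.sum_congr rfl fun u hu => by rw [if_neg (Finset.mem_filter.1 hu).2]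
          rw [e1, Finset.sum_const, nsmul_eq_mul, ← ENNReal.ofReal_natCast,
            ← ENNReal.ofReal_mul (by positivity)]
          apply ENNReal.ofReal_le_ofReal
          refine mul_le_mul_of_nonneg_right ?_ hbs
          refine le_trans ?_ (Vale.Agent.P073.LOC560.Mid.card_grid P.n P.M z (by omega))
          exact_mod_cast Finset.card_filter_le _ _
    _ = _ := by
        rw [← ENNReal.ofReal_add (by positivity) (by positivity),
          ← ENNReal.ofReal_mul (by positivity)]
        congr 1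
        have e4 : (4:ℝ) ^ P.M = 2 ^ P.M * 2 ^ P.M := by rw [← mul_pow]; norm_num
        rw [e4, pow_succ]
        ring

end Par

end P073.LOC865
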