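import Vale.Agent.P073.LOC865.Edge

/-!
# P073, block LOC, rank 1: the fine lattice in the core
-/

open Set Metric Topology Filter MeasureTheory
open scoped ENNReal ContDiff

namespace P073.LOC865

open Vale.Agent.P073.St (V IsDiffeo)
open Vale.Agent.P073.SQ (ev cube SuppDiffeo)
open Vale.Agent.P073.AB (Idx pt edge eInt)
open Vale.Agent.P073.AB.S293 (gam eInt_mono eInt_const_mul eInt_const eInt_eq eInt_add)
open Vale.Agent.P073.LR (nu mu lam AffNear)
open Vale.Agent.P073.LOC (core Q1 mid)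

namespace Par

variable (P : Par)

/-- number of fine cells in a strip -/
def R : ℤ := 2 ^ (P.M - P.m)

theorem R_eq : P.R = 2 * (P.k + 1) := by
  have h0 : 1 ≤ 2 ^ (P.M - P.m - 1) := Nat.one_le_two_pow
  have h1 : (P.k : ℤ) + 1 = 2 ^ (P.M - P.m - 1) := by
    unfold k
    push_cast [Nat.cast_sub h0]
    ring
  have h2 : P.M - P.m = (P.M - P.m - 1) + 1 := by have := P.hM; omega
  rw [h1]
  unfold R
  rw [h2, pow_succ]
  simp only [Nat.add_sub_cancel]
  ring

theorem R_cast : (P.R : ℝ) = 2 * (P.k + 1) := by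
  have := P.R_eq
  exact_mod_cast congrArg (fun z : ℤ => (z : ℝ)) this

theorem R_pos : 0 < P.R := by
  have := P.R_eq
  have : (0:ℤ) ≤ P.k := Int.natCast_nonneg _
  omega

theorem R_a : (P.R : ℝ) * P.a = P.t := by
  rw [R_cast]
  have := P.ka
  linarith

theorem gam_apply' (u : Fin 3 → ℤ) (j : Fin 3) (s : ℝ) (l : Fin 3) :
    gam P.v ((P.M, u), j) s l = P.v l + (u l + if l = j then s else 0) * P.a := by
  rw [gam_apply]
  unfold a
  ring

/-- coordinates of the core in the fine lattice -/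
theorem core_fine {x : V} : x ∈ core P.v P.n ↔
    ∀ i, P.v i + (P.i0 * P.R : ℤ) * P.a ≤ x i ∧ x i ≤ P.v i + (P.i1 * P.R : ℤ) * P.a := by
  rw [mem_core]
  have h0 : ((P.i0 * P.R : ℤ) : ℝ) * P.a = 2 * P.T := by
    push_cast
    rw [mul_assoc, R_a, i0_t]
  have h1 : ((P.i1 * P.R : ℤ) : ℝ) * P.a = 1 - 3 * P.T := by
    push_cast
    rw [mul_assoc, R_a, i1_t]
  rw [h0, h1]

theorem cmp {y : ℝ} {i j : ℤ} : y + i * P.a ≤ y + j * P.a ↔ i ≤ j := by
  rw [add_le_add_iff_left, mul_le_mul_iff_left₀ P.a_pos]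
  exact Int.cast_le

/-- the fine edges in the core -/
theorem edge_core {u : Fin 3 → ℤ} {j : Fin 3} : edge P.v ((P.M, u), j) ⊆ core P.v P.n ↔
    (∀ l, P.i0 * P.R ≤ u l ∧ u l ≤ P.i1 * P.R) ∧ u j + 1 ≤ P.i1 * P.R := by
  constructor
  · intro h
    have h0 := P.core_fine.1 (h (gam_mem (e := ((P.M, u), j)) (left_mem_Icc.2 zero_le_one)))
    have h1 := P.core_fine.1 (h (gam_mem (e := ((P.M, u), j)) (right_mem_Icc.2 zero_le_one)))
    constructor
    · intro l
      have := h0 l
      rw [gam_apply'] at this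
      simp only [ite_self, add_zero] at this
      exact ⟨P.cmp.1 this.1, P.cmp.1 this.2⟩
    · have := (h1 j).2
      rw [gam_apply', if_pos rfl] at this
      have h2 : ((u j : ℝ) + 1) = ((u j + 1 : ℤ) : ℝ) := by push_cast; ring
      rw [h2] at this
      exact P.cmp.1 this
  · rintro ⟨h1, h2⟩ x hx
    obtain ⟨s, hs, rfl⟩ := exists_gam hx
    rw [core_fine]
    intro l
    rw [gam_apply']
    have ha := P.a_pos
    have b1 : ((P.i0 * P.R : ℤ) : ℝ) ≤ u l := by exact_mod_cast (h1 l).1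
    by_cases hl : l = j
    · subst hl
      rw [if_pos rfl]
      have b2 : (u l : ℝ) + 1 ≤ ((P.i1 * P.R : ℤ) : ℝ) := by exact_mod_cast h2
      constructor
      · have := mul_le_mul_of_nonneg_right (show ((P.i0 * P.R : ℤ) : ℝ) ≤ u l + s by
          linarith [hs.1]) ha.le
        linarith
      · have := mul_le_mul_of_nonneg_right (show (u l : ℝ) + s ≤ ((P.i1 * P.R : ℤ) : ℝ) by
          linarith [hs.2]) ha.le
        linarith
    · rw [if_neg hl, add_zero]
      have b2 : (u l : ℝ) ≤ ((P.i1 * P.R : ℤ) : ℝ) := by exact_mod_cast (h1 l).2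
      constructor
      · have := mul_le_mul_of_nonneg_right b1 ha.le
        linarith
      · have := mul_le_mul_of_nonneg_right b2 ha.le
        linarith

/-- distance to the middle of the strip -/
theorem sub_d (i : ℤ) (y : ℝ) : P.v 1 + y * P.a - P.d i = (y - (i * P.R + (P.k + 1))) * P.a := by
  unfold d
  rw [← R_a, R_cast]
  ring

/-- strip of an index -/
theorem strip_mem {u : ℤ} (h0 : P.i0 * P.R ≤ u) (h1 : u < P.i1 * P.R) :
    u / P.R ∈ Finset.Ico P.i0 P.i1 := by
  have hR := P.R_pos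
  rw [Finset.mem_Ico]
  constructor
  · exact (Int.le_ediv_iff_mul_le hR).2 h0
  · exact (Int.ediv_lt_iff_lt_mul hR).2 h1

theorem div_mod (u : ℤ) : u = (u / P.R) * P.R + u % P.R := by
  have := Int.emod_add_mul_ediv u P.R
  linarith [mul_comm P.R (u / P.R)]

/-- index of the line to which the line `u` is moved -/
def tg (u : ℤ) : ℤ := if P.R ∣ u then u else (u / P.R) * P.R + (P.k + 1)

theorem tg_mem {u : ℤ} (h0 : P.i0 * P.R ≤ u) (h1 : u ≤ P.i1 * P.R) :
    P.i0 * P.R ≤ P.tg u ∧ P.tg u ≤ P.i1 * P.R := by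
  unfold tg
  split_ifs with h
  · exact ⟨h0, h1⟩
  · have hR := P.R_pos
    have h2 : u < P.i1 * P.R := lt_of_le_of_ne h1 fun h' => h (h' ▸ dvd_mul_left _ _)
    have h3 := Finset.mem_Ico.1 (P.strip_mem h0 h2)
    have hk : (0:ℤ) ≤ P.k := Int.natCast_nonneg _
    have hRk := P.R_eq
    have h4 : P.i0 * P.R ≤ u / P.R * P.R := mul_le_mul_of_nonneg_right h3.1 hR.le
    have h5 : (u / P.R + 1) * P.R ≤ P.i1 * P.R := mul_le_mul_of_nonneg_right h3.2 hR.le
    constructor
    · linarith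
    · nlinarith

/-- lines of the fine lattice in the core: the value of the collapse function -/
theorem mm_line {x : V} (hx : x ∈ core P.v P.n) {u : ℤ} (hu : x 1 = P.v 1 + u * P.a) :
    x 1 + P.mm x = P.v 1 + P.tg u * P.a := by
  have hR := P.R_pos
  have ha := P.a_pos
  have hc := P.core_fine.1 hx 1
  rw [hu] at hc
  have h0 : P.i0 * P.R ≤ u := P.cmp.1 hc.1
  have h1 : u ≤ P.i1 * P.R := P.cmp.1 hc.2
  unfold tg
  split_ifs with h
  · obtain ⟨j, hj⟩ := h
    have h2 : x 1 = P.v 1 + j * P.t := by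
      rw [hu, hj, ← R_a]; push_cast; ring
    rw [P.mm_of_line h2, add_zero, hu]
  · have h2 : u < P.i1 * P.R := lt_of_le_of_ne h1 fun h' => h (h' ▸ dvd_mul_left _ _)
    have hi := P.strip_mem h0 h2
    set i := u / P.R with hi'
    have hdm := P.div_mod u
    have hr1 : 0 < u % P.R := by
      have h3 := Int.emod_nonneg u hR.ne'
      rcases h3.lt_or_eq with h4 | h4
      · exact h4
      · exact absurd (Int.dvd_of_emod_eq_zero h4.symm) h
    have hr2 : u % P.R < P.R := Int.emod_lt_of_pos u hR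
    have hRk := P.R_eq
    have hu' : (u : ℝ) = i * P.R + (u % P.R : ℤ) := by
      rw [hi']; exact_mod_cast congrArg (fun z : ℤ => (z : ℝ)) hdm
    have hr1' : (1:ℝ) ≤ (u % P.R : ℤ) := by exact_mod_cast hr1
    have hr2' : ((u % P.R : ℤ) : ℝ) ≤ 2 * P.k + 1 := by
      have : u % P.R ≤ 2 * P.k + 1 := by omega
      exact_mod_cast this
    have hd : x 1 - P.d i = ((u % P.R : ℤ) - (P.k + 1)) * P.a := by
      rw [hu, P.sub_d, hu']; ring
    have habs : |x 1 - P.d i| ≤ P.k * P.a := by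
      rw [hd, abs_mul, abs_of_pos ha]
      apply mul_le_mul_of_nonneg_right _ ha.le
      rw [abs_le]; constructor <;> linarith
    have hlt : |x 1 - P.d i| < P.t / 2 := by have := P.ka; linarith
    rw [P.mm_of_strip hlt hi, (P.mui_spec i).2.2.2.1 x habs fun l hl =>
      (P.core_sub_Rg hx l hl).le]
    have := P.sub_d i ((i * P.R : ℝ) + (P.k + 1))
    push_cast
    rw [sub_self, zero_mul] at this
    linarith

end Par

end P073.LOC865
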