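import Vale.Agent.P073.LOC865.Geo

/-!
# P073, block LOC, rank 1: limits of the energies on all fine edges of the core
-/

open Set Metric Topology Filter MeasureTheory
open scoped ENNReal ContDiff

namespace P073.LOC865

open Vale.Agent.P073.St (V IsDiffeo)
open Vale.Agent.P073.SQ (ev cube SuppDiffeo)
open Vale.Agent.P073.AB (Idx pt edge eInt)
open Vale.Agent.P073.AB.S293 (gam eInt_mono eInt_const_mul eInt_const eInt_eq eInt_add)
open Vale.Agent.P073.LR (nu mu lam AffNear)
open Vale.Agent.P073.LOC (core Q1 mid gInt)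

theorem measurable_fd (p : ℝ) (G : V → V) (w A : V) :
    Measurable fun x => ENNReal.ofReal (‖fderiv ℝ G x w - A‖ ^ p) :=
  (((measurable_fderiv_apply_const ℝ G w).sub_const A).norm.pow_const p).ennreal_ofReal

namespace Par

variable (P : Par) {S : ℕ → V → V} {B : ℝ}

/-- edges in the directions `0`, `2` -/
theorem lim_ne (h : P.Sq S B) {p : ℝ} (hp : 0 < p) {G : V → V} (hG : ContDiffOn ℝ 1 G Q1)
    {u : Fin 3 → ℤ} {j : Fin 3} (hj : j ≠ 1) (he : edge P.v ((P.M, u), j) ⊆ core P.v P.n) (A : V) :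
    Tendsto (fun N => eInt P.v ((P.M, u), j) (fun x => ENNReal.ofReal
        (‖fderiv ℝ (G ∘ S N) x (ev j) - A‖ ^ p))) atTop
      (𝓝 (eInt P.v ((P.M, Function.update u 1 (P.tg (u 1))), j)
        (fun x => ENNReal.ofReal (‖fderiv ℝ G x (ev j) - A‖ ^ p)))) ∧
    edge P.v ((P.M, Function.update u 1 (P.tg (u 1))), j) ⊆ core P.v P.n := by
  have hg := P.edge_core.1 he
  constructor
  · refine P.tendsto_shift (e := ((P.M, u), j)) h hp hG (he.trans (P.core_sub_KK.trans P.KK_sub)) A ?_
      rfl fun s hs => ?_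
    · filter_upwards [ae_Ioo] with s hs
      refine P.aff_of_Rg (P.core_sub_Rg (he (gam_mem (Ioo_subset_Icc_self hs)))) ?_
      simp [ev, hj.symm]
    · have hx : gam P.v ((P.M, u), j) s ∈ core P.v P.n := he (gam_mem hs)
      funext l
      by_cases hl : l = 1
      · subst hl
        have h1 := P.mm_line hx (u := u 1) (by rw [P.gam_apply', if_neg hj.symm, add_zero])
        rw [add_ev_one, h1, P.gam_apply', Function.update_self, if_neg hj.symm, add_zero]
      · rw [add_ev_of_ne _ _ hl, P.gam_apply', P.gam_apply', Function.update_of_ne hl]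
  · rw [edge_core]
    refine ⟨fun l => ?_, ?_⟩
    · by_cases hl : l = 1
      · subst hl
        rw [Function.update_self]
        exact P.tg_mem (hg.1 1).1 (hg.1 1).2
      · rw [Function.update_of_ne hl]; exact hg.1 l
    · rw [Function.update_of_ne hj]; exact hg.2

/-- edges in the direction `1` -/
theorem lim_one (h : P.Sq S B) {p : ℝ} (hp : 0 < p) {G : V → V} (hG : ContDiffOn ℝ 1 G Q1)
    {u : Fin 3 → ℤ} (he : edge P.v ((P.M, u), 1) ⊆ core P.v P.n) {δ : ℝ≥0∞}
    (hδ : ∀ u' : Fin 3 → ℤ, edge P.v ((P.M, u'), 1) ⊆ core P.v P.n →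
      eInt P.v ((P.M, u'), 1) (fun x => ENNReal.ofReal (‖fderiv ℝ G x (ev 1) - 0‖ ^ p)) ≤ δ) :
    ∃ lm : ℝ≥0∞, Tendsto (fun N => eInt P.v ((P.M, u), 1) (fun x => ENNReal.ofReal
        (‖fderiv ℝ (G ∘ S N) x (ev 1) - 0‖ ^ p))) atTop (𝓝 lm) ∧
      lm ≤ ENNReal.ofReal (((P.k : ℝ) + 1) ^ p) * (((P.k + 1 : ℕ) : ℝ≥0∞) * δ) := by
  have hg := P.edge_core.1 he
  have hR := P.R_pos
  have ha := P.a_pos
  have hRk := P.R_eq
  have hk1 : (1:ℝ) ≤ P.k := by exact_mod_cast P.k_pos
  have hi := P.strip_mem (hg.1 1).1 (show u 1 < P.i1 * P.R by have := hg.2; omega)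
  have hdm := P.div_mod (u 1)
  have hr0 : 0 ≤ u 1 % P.R := Int.emod_nonneg _ hR.ne'
  have hr2 : u 1 % P.R < P.R := Int.emod_lt_of_pos _ hR
  set i := u 1 / P.R with hi'
  set r := u 1 % P.R with hr'
  have hQ : edge P.v ((P.M, u), 1) ⊆ Q1 := he.trans (P.core_sub_KK.trans P.KK_sub)
  have hu' : (u 1 : ℝ) = i * P.R + r := by
    exact_mod_cast congrArg (fun z : ℤ => (z : ℝ)) hdm
  -- position
  have hpos : ∀ s : ℝ, gam P.v ((P.M, u), 1) s 1 - P.d i = (r + s - (P.k + 1)) * P.a := by
    intro s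
    rw [P.gam_apply', if_pos rfl, P.sub_d, hu']
    ring
  have hRg : ∀ s ∈ Ioo (0:ℝ) 1, gam P.v ((P.M, u), 1) s ∈ P.Rg := fun s hs =>
    P.core_sub_Rg (he (gam_mem (Ioo_subset_Icc_self hs)))
  by_cases hr : 1 ≤ r ∧ r ≤ P.R - 2
  · -- the strip
    have hr1 : (1:ℝ) ≤ r := by exact_mod_cast hr.1
    have hr3 : (r:ℝ) ≤ 2 * P.k := by
      have : r ≤ 2 * P.k := by omega
      exact_mod_cast this
    have hc : ∀ᵐ s ∂(volume.restrict (Icc (0:ℝ) 1)),
        AffNear P.mm (gam P.v ((P.M, u), 1) s) (ev 1) (-1) := by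
      filter_upwards [ae_Ioo] with s hs
      refine P.aff_main hi (hRg s hs) ?_
      rw [hpos, abs_mul, abs_of_pos ha]
      apply mul_lt_mul_of_pos_right _ ha
      rw [abs_lt]
      constructor <;> linarith [hs.1, hs.2]
    have h1 := P.tendsto_edge (e := ((P.M, u), 1)) h hp hG hQ 0 hc
    refine ⟨_, h1, ?_⟩
    have h2 : ∫⁻ s in Icc (0:ℝ) 1, ENNReal.ofReal (‖fderiv ℝ G (gam P.v ((P.M, u), 1) s +
        P.mm (gam P.v ((P.M, u), 1) s) • ev 1) (ev 1 + (-1:ℝ) • ev 1) - 0‖ ^ p) = 0 := by
      have e1 : (ev 1 : V) + (-1:ℝ) • ev 1 = 0 := by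
        rw [neg_one_smul, add_neg_cancel]
      simp only [e1, map_zero, sub_zero, norm_zero, Real.zero_rpow hp.ne', ENNReal.ofReal_zero,
        lintegral_const, zero_mul]
    show ENNReal.ofReal _ * _ ≤ _
    rw [h2, mul_zero]
    exact zero_le
  · -- the layers
    have hr3 : r = 0 ∨ r = 2 * P.k + 1 := by omega
    -- base index
    set b : ℤ := if r = 0 then i * P.R else i * P.R + (P.k + 1) with hb
    have hc : ∀ᵐ s ∂(volume.restrict (Icc (0:ℝ) 1)),
        AffNear P.mm (gam P.v ((P.M, u), 1) s) (ev 1) P.k := by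
      filter_upwards [ae_Ioo] with s hs
      have hka := P.ka
      refine P.aff_layer hi (hRg s hs) ?_ ?_
      · rw [hpos, abs_mul, abs_of_pos ha]
        apply mul_lt_mul_of_pos_right _ ha
        rcases hr3 with h3 | h3
        · rw [h3]; push_cast
          rw [lt_abs]; right; linarith [hs.2]
        · rw [h3]; push_cast
          rw [lt_abs]; left; linarith [hs.1]
      · rw [hpos, abs_mul, abs_of_pos ha, ← hka]
        apply mul_lt_mul_of_pos_right _ ha
        rcases hr3 with h3 | h3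
        · rw [h3]; push_cast
          rw [abs_lt]; constructor <;> linarith [hs.1, hs.2]
        · rw [h3]; push_cast
          rw [abs_lt]; constructor <;> linarith [hs.1, hs.2]
    have h1 := P.tendsto_edge (e := ((P.M, u), 1)) h hp hG hQ 0 hc
    refine ⟨_, h1, ?_⟩
    -- the image point
    set H : V → ℝ≥0∞ := fun x => ENNReal.ofReal (‖fderiv ℝ G x (ev 1) - 0‖ ^ p) with hH
    have hHm : Measurable H := measurable_fd p G (ev 1) 0
    set c : ℝ := P.v 1 + b * P.a with hcdef
    have himg : ∀ s ∈ Ioo (0:ℝ) 1, gam P.v ((P.M, u), 1) s + P.mm (gam P.v ((P.M, u), 1) s) • ev 1 =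
        Function.update (pt P.v P.M u) 1 (c + (((P.k:ℝ) + 1) * P.a) * s) := by
      intro s hs
      have hx : gam P.v ((P.M, u), 1) s ∈ core P.v P.n := he (gam_mem (Ioo_subset_Icc_self hs))
      have hka := P.ka
      funext l
      by_cases hl : l = 1
      · subst hl
        rw [add_ev_one, Function.update_self]
        have hp1 := hpos s
        have hlt : |gam P.v ((P.M, u), 1) s 1 - P.d i| < P.t / 2 := by
          rw [hp1, abs_mul, abs_of_pos ha, ← hka]
          apply mul_lt_mul_of_pos_right _ ha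
          rcases hr3 with h3 | h3
          · rw [h3]; push_cast
            rw [abs_lt]; constructor <;> linarith [hs.1, hs.2]
          · rw [h3]; push_cast
            rw [abs_lt]; constructor <;> linarith [hs.1, hs.2]
        rw [P.mm_of_strip hlt hi, P.mui_eq_g i fun l hl => (P.core_sub_Rg hx l hl).le]
        have hd0 := P.sub_d i ((i * P.R : ℝ) + (P.k + 1))
        rw [sub_self, zero_mul] at hd0
        rcases hr3 with h3 | h3
        · have e2 : gam P.v ((P.M, u), 1) s 1 - P.d i = -((P.k + 1 - s) * P.a) := by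
            rw [hp1, h3]; push_cast; ring
          have b0 : (P.k : ℝ) * P.a ≤ (P.k + 1 - s) * P.a :=
            mul_le_mul_of_nonneg_right (by linarith [hs.2]) ha.le
          have b1 : (P.k + 1 - s) * P.a ≤ P.t / 2 := by
            rw [← hka]; exact mul_le_mul_of_nonneg_right (by linarith [hs.1]) ha.le
          have e3 : P.g (gam P.v ((P.M, u), 1) s 1 - P.d i) = P.k * (s * P.a) := by
            rw [e2, P.g_neg (by rw [neg_neg]; exact b0) (by rw [neg_neg]; exact b1), ← hka]
            ring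
          rw [e3]
          have e4 : (b : ℝ) = i * P.R := by rw [hb, if_pos h3]; push_cast; ring
          have e5 : gam P.v ((P.M, u), 1) s 1 = P.d i - (P.k + 1 - s) * P.a := by linarith
          rw [e5, hcdef, e4]
          linear_combination (-1 : ℝ) * hd0
        · have e2 : gam P.v ((P.M, u), 1) s 1 - P.d i = (P.k + s) * P.a := by
            rw [hp1, h3]; push_cast; ring
          have b0 : (P.k : ℝ) * P.a ≤ (P.k + s) * P.a :=
            mul_le_mul_of_nonneg_right (by linarith [hs.1]) ha.le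
          have b1 : (P.k + s) * P.a ≤ P.t / 2 := by
            rw [← hka]; exact mul_le_mul_of_nonneg_right (by linarith [hs.2]) ha.le
          have e3 : P.g (gam P.v ((P.M, u), 1) s 1 - P.d i) = -(P.k * ((1 - s) * P.a)) := by
            rw [e2, P.g_pos b0 b1, ← hka]
            ring
          rw [e3]
          have h30 : ¬ r = 0 := by have := P.k_pos; omega
          have e4 : (b : ℝ) = i * P.R + (P.k + 1) := by rw [hb, if_neg h30]; push_cast; ring
          have e5 : gam P.v ((P.M, u), 1) s 1 = P.d i + (P.k + s) * P.a := by linarith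
          rw [e5, hcdef, e4]
          linear_combination (-1 : ℝ) * hd0
      · rw [add_ev_of_ne _ _ hl, Function.update_of_ne hl, P.gam_apply', if_neg hl, add_zero]
        unfold pt a
        ring
    have hkp : (0:ℝ) < P.k + 1 := by linarith
    have hint : ∫⁻ s in Icc (0:ℝ) 1, ENNReal.ofReal (‖fderiv ℝ G (gam P.v ((P.M, u), 1) s +
        P.mm (gam P.v ((P.M, u), 1) s) • ev 1) (ev 1 + (P.k : ℝ) • ev 1) - 0‖ ^ p) =
        ENNReal.ofReal ((P.k + 1) ^ p) * ∫⁻ s in Icc (0:ℝ) 1,
          H (Function.update (pt P.v P.M u) 1 (c + (((P.k:ℝ) + 1) * P.a) * s)) := by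
      rw [← lintegral_const_mul' _ _ ENNReal.ofReal_ne_top]
      refine lintegral_congr_ae ?_
      filter_upwards [ae_Ioo] with s hs
      rw [himg s hs]
      have e1 : (ev 1 : V) + (P.k : ℝ) • ev 1 = ((P.k : ℝ) + 1) • ev 1 := by
        rw [add_smul, one_smul, add_comm]
      rw [e1, map_smul, sub_zero, norm_smul, Real.norm_eq_abs, abs_of_pos hkp,
        Real.mul_rpow hkp.le (norm_nonneg _), ENNReal.ofReal_mul (by positivity), hH]
      simp only [sub_zero]
    show ENNReal.ofReal (1 / 2 ^ P.M) * _ ≤ _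
    rw [hint]
    have hk' : 0 < ((P.k:ℝ) + 1) * P.a := mul_pos hkp ha
    have haff := Vale.Agent.P073.AB.S293.aff_lintegral
      (g := fun y => H (Function.update (pt P.v P.M u) 1 y)) (hHm.comp (measurable_update _)) c hk'
    have hsum := lintegral_Icc_le (fun y => H (Function.update (pt P.v P.M u) 1 y)) c P.a (P.k + 1)
    have hcast : ((P.k + 1 : ℕ) : ℝ) = (P.k : ℝ) + 1 := by push_cast; ring
    rw [hcast, haff] at hsum
    have hterm : ∀ j ∈ Finset.range (P.k + 1), ∫⁻ y in Icc (c + j * P.a) (c + (j + 1) * P.a),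
        H (Function.update (pt P.v P.M u) 1 y) ≤ δ := by
      intro j hj
      rw [Finset.mem_range] at hj
      have hb' : P.i0 * P.R ≤ b ∧ b + (P.k + 1) ≤ P.i1 * P.R := by
        have h3 := Finset.mem_Ico.1 hi
        have h4 : P.i0 * P.R ≤ i * P.R := mul_le_mul_of_nonneg_right h3.1 hR.le
        have h5 : (i + 1) * P.R ≤ P.i1 * P.R := mul_le_mul_of_nonneg_right h3.2 hR.le
        have hk0 : (0:ℤ) ≤ P.k := Int.natCast_nonneg _
        rw [hb]
        split_ifs <;> constructor <;> nlinarith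
      have hedge : edge P.v ((P.M, Function.update u 1 (b + j)), 1) ⊆ core P.v P.n := by
        rw [edge_core]
        have hj' : (j:ℤ) + 1 ≤ P.k + 1 := by exact_mod_cast hj
        have hj0 : (0:ℤ) ≤ j := Int.natCast_nonneg _
        refine ⟨fun l => ?_, ?_⟩
        · by_cases hl : l = 1
          · subst hl
            rw [Function.update_self]
            constructor <;> linarith [hb'.1, hb'.2]
          · rw [Function.update_of_ne hl]; exact hg.1 l
        · rw [Function.update_self]
          linarith [hb'.2]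
      refine le_trans (le_of_eq ?_) (hδ _ hedge)
      rw [eInt_eq P.v _ hHm]
      have e1 : P.v 1 + (Function.update u 1 (b + j) 1 : ℝ) / 2 ^ P.M = c + j * P.a := by
        rw [Function.update_self, hcdef]; unfold a; push_cast; ring
      have e2 : P.v 1 + ((Function.update u 1 (b + j) 1 : ℝ) + 1) / 2 ^ P.M = c + (j + 1) * P.a := by
        rw [Function.update_self, hcdef]; unfold a; push_cast; ring
      show _ = ∫⁻ y in Icc (P.v 1 + (Function.update u 1 (b + j) 1 : ℝ) / 2 ^ P.M)
        (P.v 1 + ((Function.update u 1 (b + j) 1 : ℝ) + 1) / 2 ^ P.M),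
        H (Function.update (pt P.v P.M (Function.update u 1 (b + j))) 1 y)
      rw [e1, e2]
      refine lintegral_congr fun y => ?_
      congr 1
      funext l
      by_cases hl : l = 1
      · subst hl; simp
      · rw [Function.update_of_ne hl, Function.update_of_ne hl]
        unfold pt
        rw [Function.update_of_ne hl]
    have hsum2 : ENNReal.ofReal (((P.k:ℝ) + 1) * P.a) * ∫⁻ s in Icc (0:ℝ) 1,
        H (Function.update (pt P.v P.M u) 1 (c + (((P.k:ℝ) + 1) * P.a) * s)) ≤
        ((P.k + 1 : ℕ) : ℝ≥0∞) * δ := by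
      refine hsum.trans ((Finset.sum_le_sum hterm).trans ?_)
      rw [Finset.sum_const, Finset.card_range, nsmul_eq_mul]
    calc ENNReal.ofReal (1 / 2 ^ P.M) * (ENNReal.ofReal ((P.k + 1) ^ p) * ∫⁻ s in Icc (0:ℝ) 1,
          H (Function.update (pt P.v P.M u) 1 (c + (((P.k:ℝ) + 1) * P.a) * s)))
        ≤ ENNReal.ofReal (((P.k:ℝ) + 1) * P.a) * (ENNReal.ofReal ((P.k + 1) ^ p) *
          ∫⁻ s in Icc (0:ℝ) 1,
          H (Function.update (pt P.v P.M u) 1 (c + (((P.k:ℝ) + 1) * P.a) * s))) := by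
          gcongr
          show P.a ≤ _
          nlinarith
      _ = ENNReal.ofReal ((P.k + 1) ^ p) * (ENNReal.ofReal (((P.k:ℝ) + 1) * P.a) *
          ∫⁻ s in Icc (0:ℝ) 1,
          H (Function.update (pt P.v P.M u) 1 (c + (((P.k:ℝ) + 1) * P.a) * s))) := by ring
      _ ≤ _ := by gcongr

end Par

end P073.LOC865
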