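import Vale.Agent.P073.LOC865.Fin
import Vale.Agent.P073.LOC865.Alg560

/-!
# P073, block LOC, rank 1: **(COLL1)** the collapse in the direction `1`
-/

open Set Metric Topology Filter MeasureTheory
open scoped ENNReal ContDiff

namespace P073.LOC865

open Vale.Agent.P073.St (V IsDiffeo)
open Vale.Agent.P073.SQ (ev cube SuppDiffeo dE faceE edgesE)
open Vale.Agent.P073.AB (Idx pt edge eInt squ sqE subEdge tiles EdgeOf)
open Vale.Agent.P073.AB.P86 (sc)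
open Vale.Agent.P073.LOC (core Q1 mid gInt OE Sec Net1 SpecNet1 SpecSec SpecColl1 Near BdClose)
open Vale.Agent.P073.LOC560.Mid (grid mem_grid)

/-- all bounds for one `N` -/
theorem Par.exists_good (P : Par) {S : ℕ → V → V} {B p δ : ℝ} {L : V →L[ℝ] V} {G : V → V}
    (D : Dat P p δ L G) (h : P.Sq S B) : ∃ (F : Finset (Idx × Fin 3)) (N : ℕ),
      (∀ e ∈ F, e ∈ OE P.v P.n) ∧
      (∀ e : Idx × Fin 3, e.1.1 = P.M → edge P.v e ⊆ core P.v P.n →
        gInt p P.v (G ∘ S N) e ≤ ENNReal.ofReal ((if e.2 = 2 then δ else P.B0 p δ L) + δ)) ∧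
      (∀ z : ℤ, 2 ≤ z → z < 2 ^ P.n - 3 → ∀ u ∈ grid P.n P.M z,
        (lay P.R u → edgesE p (G ∘ S N) (sc P.v ((P.M, u), 2)) 2 (1 / 2 / 2 ^ P.M) ≤
          ENNReal.ofReal (P.a ^ 2 * (4 * (P.B0 p δ L + δ)))) ∧
        (¬ lay P.R u → ∑ j ∈ Finset.univ.erase (2 : Fin 3),
          ∫⁻ x in cube (sc P.v ((P.M, u), 2)) (1 / 2 / 2 ^ P.M), ENNReal.ofReal
            (‖fderiv ℝ (G ∘ S N) (Function.update x 2 (sc P.v ((P.M, u), 2) 2)) (ev j) -
              L (ev j)‖ ^ p) ≤ ENNReal.ofReal (P.a ^ 2 * δ + 2 * δ))) ∧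
      ∀ K : Set V, IsClosed K → K ⊆ P.KK → (∀ e ∈ F, Disjoint (edge P.v e) K) →
        ∀ g : V → V, (∀ x, x ∉ K → g =ᶠ[𝓝 x] G ∘ S N) →
          ∑' e : {e : Idx × Fin 3 // (∃ q ∈ tiles Q1 P.n P.v, EdgeOf e q) ∧
              ¬ edge P.v e ⊆ core P.v P.n},
            ENNReal.ofReal ((1 / 2 ^ e.1.1.1) ^ 2) * gInt p P.v g e.1 ≤
          ∑' e : {e : Idx × Fin 3 // (∃ q ∈ tiles Q1 P.n P.v, EdgeOf e q) ∧
              ¬ edge P.v e ⊆ core P.v P.n},
            ENNReal.ofReal ((1 / 2 ^ e.1.1.1) ^ 2) * gInt p P.v G e.1 + ENNReal.ofReal δ := by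
  have hp0 : 0 < p := by linarith [D.hp1]
  have hM1 : P.n + 1 ≤ P.M := by have := P.hm; have := P.hM; omega
  obtain ⟨F, hF, hout⟩ := out_bound P h hp0 D.smooth D.δ0
  have e1 : ∀ᶠ N in atTop, ∀ e ∈ {e : Idx × Fin 3 | e.1.1 = P.M ∧ edge P.v e ⊆ core P.v P.n},
      gInt p P.v (G ∘ S N) e ≤ ENNReal.ofReal ((if e.2 = 2 then δ else P.B0 p δ L) + δ) :=
    (Filter.eventually_all_finite P.finite_fine).2 fun e he => P.edge_bound D h he.1 he.2
  have e2 : ∀ᶠ N in atTop, ∀ z ∈ Finset.Ico (2:ℤ) (2 ^ P.n - 3), ∀ u ∈ grid P.n P.M z,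
        (lay P.R u → edgesE p (G ∘ S N) (sc P.v ((P.M, u), 2)) 2 (1 / 2 / 2 ^ P.M) ≤
          ENNReal.ofReal (P.a ^ 2 * (4 * (P.B0 p δ L + δ)))) ∧
        (¬ lay P.R u → ∑ j ∈ Finset.univ.erase (2 : Fin 3),
          ∫⁻ x in cube (sc P.v ((P.M, u), 2)) (1 / 2 / 2 ^ P.M), ENNReal.ofReal
            (‖fderiv ℝ (G ∘ S N) (Function.update x 2 (sc P.v ((P.M, u), 2) 2)) (ev j) -
              L (ev j)‖ ^ p) ≤ ENNReal.ofReal (P.a ^ 2 * δ + 2 * δ)) := by
    rw [Filter.eventually_all_finset]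
    intro z hz
    rw [Filter.eventually_all_finset]
    intro u hu
    obtain ⟨hz1, hz2⟩ := Finset.mem_Ico.1 hz
    have hcore := Vale.Agent.P073.LOC560.Mid.squ_sub_core P.v hM1 hz1 hz2 hu
    refine Filter.Eventually.and ?_ ?_
    · filter_upwards [P.layer_bound D h hcore] with N hN _ using hN
    · by_cases hl : lay P.R u
      · exact Eventually.of_forall fun N h => absurd hl h
      · have h1 : ¬ P.R ∣ u 1 := fun h => hl (Or.inl h)
        have h2 : ¬ P.R ∣ u 1 + 1 := fun h => hl (Or.inr h)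
        filter_upwards [P.strip_bound D h hcore h1 h2] with N hN _ using hN
  obtain ⟨N, hN1, hN2, hN3⟩ := (e1.and (e2.and hout)).exists
  exact ⟨F, N, hF, fun e he1 he2 => hN1 e ⟨he1, he2⟩,
    fun z hz1 hz2 u hu => hN2 z (Finset.mem_Ico.2 ⟨hz1, hz2⟩) u hu, hN3⟩

/-- **(COLL1)** -/
theorem specColl1 : SpecColl1 := by
  rintro p L hp1 hp2 hL1 hL2 ⟨C₁, hC₁, hnet⟩
  obtain ⟨Cs, hCs, hsq⟩ := exists_mids p hp1 hp2
  have hp0 : 0 < p := by linarith
  set A : ℝ := ‖L (ev 0)‖ ^ p with hA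
  have hA0 : 0 ≤ A := by positivity
  refine ⟨C₁ + 2 * A + 1, by positivity, fun n m hn hm ε hε => ?_⟩
  obtain ⟨M, hM, hMA⟩ := Vale.Agent.P073.LOC560.Alg.exists_gen Cs A ε hCs.le hA0 hε m
  obtain ⟨δ, hδ, hall⟩ := Vale.Agent.P073.LOC560.Alg.exists_delta
    ((((2 ^ (M - m - 1) - 1 : ℕ) : ℝ) + 1) ^ p * (((2 ^ (M - m - 1) - 1 : ℕ) : ℝ) + 1)) Cs A ε
    (by positivity) hCs.le hA0 hε n m M (by omega)
  obtain ⟨hd1, hd2, hd3, hd4, hd5⟩ := hall _ rfl
  obtain ⟨κ, hκ, hκ'⟩ := hnet n M hn (by omega) δ hδ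
  refine ⟨κ, hκ, fun Λ f F hnear => ?_⟩
  obtain ⟨v, G, hN⟩ := hκ' Λ f F hnear
  set P : Par := ⟨v, n, m, M, hN.org, hn, hm, hM⟩ with hP
  have hGs : ContDiffOn ℝ 1 G Q1 :=
    (Vale.Agent.P073.SQ.isDiffeo_cd hN.diffeo).of_le (by exact_mod_cast le_top)
  have D : Dat P p δ L G := ⟨hp1, hp2, hL1, hL2, hGs, hδ, hN.fine⟩
  obtain ⟨S, B, hS⟩ := P.exists_sq
  obtain ⟨F₀, N, hF₀, hfine, hmid, hout⟩ := P.exists_good D hS
  set g₀ : V → V := G ∘ S N with hg₀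
  have hg₀s : ContDiffOn ℝ 1 g₀ Q1 := P.contDiffOn_comp hGs hS N
  obtain ⟨K, s, hs, hK1, hK2, hK3, hK4⟩ := hsq P g₀ F₀ δ hg₀s hδ hF₀
  have hgerm : ∀ x, x ∉ K → g₀ ∘ s =ᶠ[𝓝 x] g₀ := fun x hx => germ_off hs hx
  have hB0 : P.B0 p δ L = 2 * δ + 2 * (1 / 2 ^ M * A) +
      ((((2 ^ (M - m - 1) - 1 : ℕ) : ℝ) + 1) ^ p * (((2 ^ (M - m - 1) - 1 : ℕ) : ℝ) + 1)) * δ := rfl
  rw [← hB0] at hd1 hd5
  have hB0' : 0 ≤ P.B0 p δ L := P.B0_nonneg hδ
  have hfine' : ∀ e : Idx × Fin 3, e.1.1 = P.M → edge P.v e ⊆ core P.v P.n →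
      gInt p P.v (g₀ ∘ s) e ≤ ENNReal.ofReal ((if e.2 = 2 then δ else P.B0 p δ L) + δ) := by
    intro e he1 he2
    rw [gInt_congr fun x hx => hgerm x (Set.disjoint_left.1 (hK2 e he1) hx)]
    exact hfine e he1 he2
  refine ⟨v, g₀ ∘ s, hN.org, ?_, ?_, ?_, ?_, ?_, ?_⟩
  · -- diffeo
    have h1 : IsDiffeo Q1 Q1 s := SuppDiffeo.isDiffeo' hs (hK1.trans P.KK_sub)
    have h2 : IsDiffeo Q1 Q1 (S N) := SuppDiffeo.isDiffeo' (hS.diffeo N) P.KK_sub
    exact Vale.Agent.P073.SQ.isDiffeo_comp h1 (Vale.Agent.P073.SQ.isDiffeo_comp h2 hN.diffeo)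
  · -- close
    intro δ' hδ'
    obtain ⟨K', hK'1, hK'2, hK'3⟩ := hN.close δ' hδ'
    refine ⟨K' ∪ P.KK, union_subset hK'1 P.KK_sub, hK'2.union P.isCompact_KK, fun x hx => ?_⟩
    have h1 : x ∉ P.KK := fun h => hx.2 (Or.inr h)
    have h2 : (g₀ ∘ s) x = G x := by
      show G (S N (s x)) = G x
      rw [hs.supp x fun h => h1 (hK1 h), (hS.diffeo N).supp x h1]
    rw [h2]
    exact hK'3 x ⟨hx.1, fun h => hx.2 (Or.inl h)⟩
  · -- hor
    intro e he1 he2 he3 _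
    have h1 := P.coarse_bound (p := p) (g := g₀ ∘ s) (b := P.B0 p δ L + δ) (e := e)
      (by positivity) he1 he2 fun e' h1 h2 h3 => by
        have := hfine' e' h1 h2
        rwa [if_neg (by rw [h3]; exact he3)] at this
    refine h1.trans (ENNReal.ofReal_le_ofReal (hd1.trans ?_))
    refine div_le_div_of_nonneg_right (by linarith) (by positivity)
  · -- ver
    intro e he1 he2 he3
    have h1 := P.coarse_bound (p := p) (g := g₀ ∘ s) (b := 2 * δ) (e := e)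
      (by positivity) he1 he2 fun e' h1 h2 h3 => by
        have := hfine' e' h1 h2
        rw [if_pos (h3.trans he3)] at this
        rwa [two_mul]
    exact h1.trans (ENNReal.ofReal_le_ofReal hd2)
  · -- out
    refine (hout K hs.compact.isClosed hK1 hK3 (g₀ ∘ s) hgerm).trans ?_
    refine (add_le_add_left hN.out _).trans ?_
    rw [← ENNReal.ofReal_add (by positivity) hδ.le]
    apply ENNReal.ofReal_le_ofReal
    calc C₁ / 2 ^ n + δ ≤ C₁ / 2 ^ n + 1 / 2 ^ n := by linarith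
      _ = (C₁ + 1) / 2 ^ n := by ring
      _ ≤ _ := div_le_div_of_nonneg_right (by linarith) (by positivity)
  · -- sec
    intro z hz1 hz2
    have ha := P.a_pos
    have hρ : (0:ℝ) ≤ 1 / 2 / 2 ^ P.M := by positivity
    have h1 := P.sec_bound (p := p) (g := g₀ ∘ s) (L := L) (z := z) (bs := P.a ^ 2 * δ + 2 * δ)
      (bl := 2 * Cs * (P.a ^ 2 * (4 * (P.B0 p δ L + δ))) + 2 * δ + 2 * A * P.a ^ 3)
      (by positivity) (by positivity) ?_
    · refine h1.trans (ENNReal.ofReal_le_ofReal ?_)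
      have ea : P.a = 1 / 2 ^ M := rfl
      rw [ea]
      have hPM : P.M = M := rfl
      have hPm : P.m = m := rfl
      rw [hPM, hPm]
      linarith
    · intro u hu
      obtain ⟨hl, hnl⟩ := hmid z hz1 hz2 u hu
      obtain ⟨hk1, hk2⟩ := hK4 z hz1 hz2 u hu
      by_cases hlay : lay P.R u
      · rw [if_pos hlay]
        have h2 := face_dev hp1 hp2 (g₀ ∘ s) L hL1 (sc P.v ((P.M, u), 2)) hρ
        refine h2.trans ?_
        have h3 := (hk2 hlay).trans (add_le_add_left (mul_le_mul' le_rfl (hl hlay)) _)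
        have e1 : 2 * (1 / 2 / 2 ^ P.M) = P.a := by unfold Par.a; ring
        rw [e1]
        have e2 : (2:ℝ≥0∞) = ENNReal.ofReal 2 := by norm_num
        calc _ ≤ 2 * (ENNReal.ofReal Cs * ENNReal.ofReal (P.a ^ 2 * (4 * (P.B0 p δ L + δ))) +
              ENNReal.ofReal δ) + ENNReal.ofReal (2 * A * P.a ^ 3) :=
              add_le_add_left (mul_le_mul' le_rfl h3) _
          _ = _ := by
              rw [← ENNReal.ofReal_mul hCs.le, ← ENNReal.ofReal_add (by positivity) hδ.le, e2,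
                ← ENNReal.ofReal_mul (by norm_num), ← ENNReal.ofReal_add (by positivity)
                  (by positivity)]
              congr 1
              ring
      · rw [if_neg hlay]
        refine le_trans (le_of_eq ?_) (hnl hlay)
        refine Finset.sum_congr rfl fun j _ => ?_
        refine setLIntegral_congr_fun
          (Vale.Agent.P073.SQ.isClosed_cube _ _).measurableSet fun x hx => ?_
        have h4 := hgerm _ (Set.disjoint_left.1 (hk1 hlay) (upd_squ hx))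
        show ENNReal.ofReal (‖fderiv ℝ (g₀ ∘ s) (Function.update x 2 (sc P.v ((P.M, u), 2) 2)) (ev j) -
          L (ev j)‖ ^ p) = _
        rw [h4.fderiv_eq]

end P073.LOC865
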