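import Vale.Agent.P073.SQ.Step2

/-!
# P073, block LOC: squeeze of a finite family of squares
-/

open MeasureTheory Set Filter Topology Metric
open scoped ContDiff ENNReal

namespace P073.LOC865

open Vale.Agent.P073.St Vale.Agent.P073.SQ

/-- the closed square with centre `a`, normal `k`, half side `ρ` -/
def csq (a : V) (k : Fin 3) (ρ : ℝ) : Set V := {x | x k = a k ∧ ∀ l, |x l - a l| ≤ ρ}

/-- the open square -/
def osq (a : V) (k : Fin 3) (ρ : ℝ) : Set V := {x | x k = a k ∧ ∀ l, l ≠ k → |x l - a l| < ρ}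

theorem isClosed_csq (a : V) (k : Fin 3) (ρ : ℝ) : IsClosed (csq a k ρ) := by
  have : csq a k ρ = {x : V | x k = a k} ∩ cube a ρ := by
    ext x; simp [csq, cube]
  rw [this]
  exact (isClosed_eq (continuous_apply _) continuous_const).inter (isClosed_cube _ _)

theorem osq_subset_csq {a : V} {k : Fin 3} {ρ : ℝ} (hρ : 0 < ρ) : osq a k ρ ⊆ csq a k ρ := by
  rintro x ⟨h1, h2⟩
  refine ⟨h1, fun l => ?_⟩
  by_cases hl : l = k
  · subst hl; rw [h1, sub_self, abs_zero]; exact hρ.le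
  · exact (h2 l hl).le

theorem update_mem_csq {a x : V} {k : Fin 3} {ρ : ℝ} (hρ : 0 < ρ) (hx : x ∈ cube a ρ) :
    Function.update x k (a k) ∈ csq a k ρ := by
  refine ⟨by simp, fun l => ?_⟩
  by_cases hl : l = k
  · subst hl; simp [hρ.le]
  · rw [Function.update_of_ne hl]; exact hx l

theorem csq_nonempty {a : V} {k : Fin 3} {ρ : ℝ} (hρ : 0 < ρ) : (csq a k ρ).Nonempty :=
  ⟨a, rfl, fun l => by simp [hρ.le]⟩

/-- equal germs on the square: equal energies -/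
theorem faceE_congr' {p : ℝ} {G H : V → V} {a : V} {k : Fin 3} {ρ : ℝ} (hρ : 0 < ρ)
    (h : ∀ y ∈ csq a k ρ, G =ᶠ[𝓝 y] H) : faceE p G a k ρ = faceE p H a k ρ := by
  unfold faceE
  refine Finset.sum_congr rfl fun j _ => ?_
  refine setLIntegral_congr_fun (isClosed_cube _ _).measurableSet fun x hx => ?_
  exact dE_congr (h _ (update_mem_csq hρ hx)) j

/-- pairwise disjoint neighbourhoods of the open squares -/
theorem exists_disjoint_nbhds {ι : Type} [Finite ι] {a : ι → V} {k : ι → Fin 3} {ρ : ι → ℝ}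
    {U : Set V} (hρ : ∀ i, 0 < ρ i) (hU : IsOpen U) (hsub : ∀ i, osq (a i) (k i) (ρ i) ⊆ U)
    (hd : ∀ i j, i ≠ j → Disjoint (osq (a i) (k i) (ρ i)) (csq (a j) (k j) (ρ j))) :
    ∃ O : ι → Set V, (∀ i, IsOpen (O i)) ∧ (∀ i, osq (a i) (k i) (ρ i) ⊆ O i) ∧
      (∀ i, O i ⊆ U) ∧ (∀ i j, i ≠ j → Disjoint (O i) (O j)) ∧
      ∀ i j, i ≠ j → Disjoint (O i) (csq (a j) (k j) (ρ j)) := by
  set Q : ι → Set V := fun i => csq (a i) (k i) (ρ i) with hQ
  set Y : ι → Set V := fun i => Uᶜ ∪ ⋃ j ∈ {j | j ≠ i}, Q j with hY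
  have hYc : ∀ i, IsClosed (Y i) := fun i =>
    hU.isClosed_compl.union ((Set.toFinite {j | j ≠ i}).isClosed_biUnion fun j _ =>
      isClosed_csq _ _ _)
  have hnotY : ∀ i x, infEDist x (Q i) < infEDist x (Y i) → x ∉ Y i := by
    intro i x hx h
    rw [infEDist_zero_of_mem h] at hx
    exact absurd hx (not_lt.2 zero_le)
  refine ⟨fun i => {x | infEDist x (Q i) < infEDist x (Y i)}, fun i => ?_, fun i x hx => ?_,
    fun i x hx => ?_, fun i j hij => ?_, fun i j hij => ?_⟩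
  · exact isOpen_lt continuous_infEDist continuous_infEDist
  · have h1 : infEDist x (Q i) = 0 := infEDist_zero_of_mem (osq_subset_csq (hρ i) hx)
    have h2 : x ∉ Y i := by
      rintro (h | h)
      · exact h (hsub i hx)
      · obtain ⟨j, hj, hxj⟩ := mem_iUnion₂.1 h
        exact Set.disjoint_left.1 (hd i j (Ne.symm hj)) hx hxj
    show infEDist x (Q i) < infEDist x (Y i)
    rw [h1]
    refine lt_of_le_of_ne zero_le fun h => h2 ?_
    have := mem_closure_iff_infEDist_zero.2 h.symm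
    rwa [(hYc i).closure_eq] at this
  · by_contra hxU
    exact hnotY i x hx (Or.inl hxU)
  · rw [Set.disjoint_left]
    intro x hx hx'
    have hx : infEDist x (Q i) < infEDist x (Y i) := hx
    have hx' : infEDist x (Q j) < infEDist x (Y j) := hx'
    have s1 : Q j ⊆ Y i := fun y hy => Or.inr (mem_iUnion₂.2 ⟨j, Ne.symm hij, hy⟩)
    have s2 : Q i ⊆ Y j := fun y hy => Or.inr (mem_iUnion₂.2 ⟨i, hij, hy⟩)
    have h1 : infEDist x (Y i) ≤ infEDist x (Q j) := infEDist_anti s1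
    have h2 : infEDist x (Y j) ≤ infEDist x (Q i) := infEDist_anti s2
    exact lt_irrefl _ ((hx.trans_le h1).trans (hx'.trans_le h2))
  · rw [Set.disjoint_left]
    intro x hx hxj
    exact hnotY i x hx (Or.inr (mem_iUnion₂.2 ⟨j, Ne.symm hij, hxj⟩))

/-- **Squeeze of a finite family of squares** with pairwise disjoint relative interiors. -/
theorem exists_squeeze (p : ℝ) (hp : 1 ≤ p) (hp2 : p < 2) : ∃ C : ℝ≥0∞, C ≠ ⊤ ∧
    ∀ (ι : Type) [Finite ι] (a : ι → V) (k : ι → Fin 3) (ρ : ι → ℝ) (U W : Set V) (G : V → V)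
      (ε : ℝ≥0∞), (∀ i, 0 < ρ i) → IsOpen U → (∀ i, osq (a i) (k i) (ρ i) ⊆ U) → IsOpen W →
      (∀ i, csq (a i) (k i) (ρ i) ⊆ W) → ContDiffOn ℝ 1 G W → ε ≠ 0 →
      (∀ i j, i ≠ j → Disjoint (osq (a i) (k i) (ρ i)) (csq (a j) (k j) (ρ j))) →
      ∃ (K : Set V) (s : V → V), SuppDiffeo K s ∧ K ⊆ U ∧
        (∀ x ∈ K, ∃ i, s x (k i) = x (k i) ∧ (∀ l, l ≠ k i → |x l - a i l| < ρ i) ∧
          (∀ l, l ≠ k i → |s x l - a i l| < ρ i)) ∧
        (∀ i, ∀ x ∈ csq (a i) (k i) (ρ i), s x ∈ csq (a i) (k i) (ρ i)) ∧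
        ∀ i, faceE p (G ∘ s) (a i) (k i) (ρ i) ≤ C * edgesE p G (a i) (k i) (ρ i) + ε := by
  obtain ⟨C, hC, hface⟩ := specFace p hp hp2
  refine ⟨C, hC, ?_⟩
  intro ι hfin a k ρ U W G ε hρ hU hUs hW hWs hG hε hd
  obtain ⟨O, hO1, hO2, hO3, hO4, hO5⟩ := exists_disjoint_nbhds hρ hU hUs hd
  have hex : ∀ i, ∃ (K : Set V) (s : V → V), SuppDiffeo K s ∧
      K ⊆ O i ∩ {x | ∀ l, l ≠ k i → |x l - a i l| < ρ i} ∧ (∀ x, s x (k i) = x (k i)) ∧
      faceE p (G ∘ s) (a i) (k i) (ρ i) ≤ C * edgesE p G (a i) (k i) (ρ i) + ε := by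
    intro i
    obtain ⟨K, s, h1, h2, h3, h4, -⟩ := hface (a i) (k i) (ρ i) (O i) W G (fun _ => 0) ε (hρ i)
      (hO1 i) (fun x hx hx' => hO2 i ⟨hx, hx'⟩) hW (fun x hx hx' => hWs i ⟨hx, fun l => by
        by_cases hl : l = k i
        · subst hl; rw [hx, sub_self, abs_zero]; exact (hρ i).le
        · exact hx' l hl⟩) hG continuous_const (fun _ => zero_le) hε
    exact ⟨K, s, h1, h2, h3, h4⟩
  choose K s h1 h2 h3 h4 using hex
  have hKO : ∀ i, K i ⊆ O i := fun i x hx => (h2 i hx).1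
  obtain ⟨S, hS, hS1, hS2, hS3⟩ := specGlue univ ι K s isOpen_univ h1 (fun _ => subset_univ _)
    (fun i j h => (hO4 i j h).mono (hKO i) (hKO j)) (fun x _ => ⟨univ, univ_mem, Set.toFinite _⟩)
  obtain ⟨T, hT, hSm, hTm⟩ := hS
  have hSd : SuppDiffeo (⋃ i, K i) S := by
    refine ⟨isCompact_iUnion fun i => (h1 i).compact, ?_, ⟨T, ?_, ?_, ?_⟩, ?_⟩
    · have := isDiffeo_cd (Ω := univ) (Λ := univ) (g := S) ⟨T, hT, hSm, hTm⟩
      rwa [contDiffOn_univ] at this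
    · rw [← contDiffOn_univ]
      exact contDiffOn_pi.2 fun i => hTm i
    · intro x; exact (hT.1 x (mem_univ _)).2
    · intro x; exact (hT.2 x (mem_univ _)).2
    · intro x hx
      exact hS2 x fun i hi => hx (mem_iUnion.2 ⟨i, hi⟩)
  have hgerm : ∀ i, ∀ x ∈ csq (a i) (k i) (ρ i), S =ᶠ[𝓝 x] s i := fun i x hx =>
    hS3 i x (mem_univ _) fun j hj hxj => Set.disjoint_left.1 (hO5 j i hj) (hKO j hxj) hx
  refine ⟨⋃ i, K i, S, hSd, ?_, ?_, ?_, ?_⟩
  · exact iUnion_subset fun i => (hKO i).trans (hO3 i)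
  · intro x hx
    obtain ⟨i, hi⟩ := mem_iUnion.1 hx
    refine ⟨i, ?_, (h2 i hi).2, ?_⟩
    · rw [hS1 i x hi, h3]
    · rw [hS1 i x hi]
      exact (h2 i ((h1 i).mapsTo hi)).2
  · intro i x hx
    rw [(hgerm i x hx).eq_of_nhds]
    refine ⟨by rw [h3]; exact hx.1, fun l => ?_⟩
    by_cases hl : l = k i
    · subst hl; rw [h3]; exact hx.2 _
    · by_cases hxK : x ∈ K i
      · exact ((h2 i ((h1 i).mapsTo hxK)).2 l hl).le
      · rw [(h1 i).supp x hxK]; exact hx.2 l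
  · intro i
    rw [faceE_congr' (H := G ∘ s i) (hρ i) fun y hy => comp_congr (hgerm i y hy)]
    exact h4 i

end P073.LOC865
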