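import Vale.Agent.P073.LOC865.Strip
import Vale.Agent.P073.LOC865.Plane
import Vale.Agent.P073.LOC560.MidSum
import Vale.Agent.P073.LOC.Geo308d

/-!
# P073, block LOC, rank 1: the squeeze in the squares of the layers
-/

open Set Metric Topology Filter MeasureTheory
open scoped ENNReal ContDiff

namespace P073.LOC865

open Vale.Agent.P073.St (V IsDiffeo)
open Vale.Agent.P073.SQ (ev cube SuppDiffeo dE faceE edgesE)
open Vale.Agent.P073.AB (Idx pt edge eInt squ sqE)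
open Vale.Agent.P073.AB.P86 (sc)
open Vale.Agent.P073.LOC (core Q1 mid gInt OE)
open Vale.Agent.P073.LOC560.Mid (grid mem_grid)

/-- lattice planes -/
def lat (v : V) (M : ℕ) (i : Fin 3) : Set V := {x | ∃ z : ℤ, x i = v i + z / 2 ^ M}

theorem isClosed_lat (v : V) (M : ℕ) (i : Fin 3) : IsClosed (lat v M i) := by
  have : lat v M i = (fun x : V => (x i - v i) * 2 ^ M) ⁻¹' (Set.range ((↑) : ℤ → ℝ)) := by
    ext x
    constructor
    · rintro ⟨z, hz⟩
      refine ⟨z, ?_⟩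
      show (z:ℝ) = (x i - v i) * 2 ^ M
      rw [hz]; field_simp; ring
    · rintro ⟨z, hz⟩
      refine ⟨z, ?_⟩
      have hz : (z:ℝ) = (x i - v i) * 2 ^ M := hz
      rw [hz]; field_simp; ring
  rw [this]
  exact Int.isClosedEmbedding_coe_real.isClosed_range.preimage (by fun_prop)

/-- the one-dimensional skeleton of generation `M` -/
def skel (v : V) (M : ℕ) : Set V := {x | ∃ i j, i ≠ j ∧ x ∈ lat v M i ∧ x ∈ lat v M j}

theorem isClosed_skel (v : V) (M : ℕ) : IsClosed (skel v M) := by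
  have : skel v M = ⋃ i : Fin 3, ⋃ j : Fin 3, {x | i ≠ j ∧ x ∈ lat v M i ∧ x ∈ lat v M j} := by
    ext x; simp [skel]
  rw [this]
  refine isClosed_iUnion_of_finite fun i => isClosed_iUnion_of_finite fun j => ?_
  by_cases h : i = j
  · simp [h]
  · simp only [ne_eq, h, not_false_eq_true, true_and]
    exact (isClosed_lat v M i).inter (isClosed_lat v M j)

theorem edge_sub_skel {v : V} {e : Idx × Fin 3} : edge v e ⊆ skel v e.1.1 := by
  intro x hx
  obtain ⟨s, -, rfl⟩ := exists_gam hx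
  have h : ∀ j : Fin 3, ∃ i i' : Fin 3, i ≠ i' ∧ i ≠ j ∧ i' ≠ j := by decide
  obtain ⟨i, i', h1, h2, h3⟩ := h e.2
  refine ⟨i, i', h1, ⟨e.1.2 i, ?_⟩, ⟨e.1.2 i', ?_⟩⟩
  · rw [gam_apply, if_neg h2, add_zero]
  · rw [gam_apply, if_neg h3, add_zero]

theorem mem_osq {v : V} {M : ℕ} {u : Fin 3 → ℤ} {x : V} :
    x ∈ osq (sc v ((M, u), 2)) 2 (1 / 2 / 2 ^ M) ↔ x 2 = v 2 + u 2 / 2 ^ M ∧
      ∀ l, l ≠ 2 → v l + u l / 2 ^ M < x l ∧ x l < v l + (u l + 1) / 2 ^ M := by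
  have e2 : sc v ((M, u), 2) 2 = v 2 + u 2 / 2 ^ M := by simp [sc]
  constructor
  · rintro ⟨h1, h2⟩
    refine ⟨by rw [h1, e2], fun l hl => ?_⟩
    have h3 := abs_lt.1 (h2 l hl)
    simp only [sc, if_neg hl] at h3
    have e3 : ((u l : ℝ) + 1 / 2) / 2 ^ M = u l / 2 ^ M + 1 / 2 / 2 ^ M := by ring
    have e4 : ((u l : ℝ) + 1) / 2 ^ M = u l / 2 ^ M + 1 / 2 / 2 ^ M + 1 / 2 / 2 ^ M := by ring
    rw [e3] at h3
    rw [e4]
    constructor <;> linarith [h3.1, h3.2]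
  · rintro ⟨h1, h2⟩
    refine ⟨by rw [h1, e2], fun l hl => ?_⟩
    obtain ⟨h3, h4⟩ := h2 l hl
    have e3 : ((u l : ℝ) + 1 / 2) / 2 ^ M = u l / 2 ^ M + 1 / 2 / 2 ^ M := by ring
    have e4 : ((u l : ℝ) + 1) / 2 ^ M = u l / 2 ^ M + 1 / 2 / 2 ^ M + 1 / 2 / 2 ^ M := by ring
    rw [e4] at h4
    simp only [sc, if_neg hl]
    rw [e3, abs_lt]
    constructor <;> linarith

theorem csq_eq (v : V) (M : ℕ) (u : Fin 3 → ℤ) :
    csq (sc v ((M, u), 2)) 2 (1 / 2 / 2 ^ M) = squ v ((M, u), 2) := by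
  ext x
  exact Vale.Agent.P073.AB.P86.mem_squ_iff (v := v) (s := ((M, u), 2)) (x := x)

theorem not_lat {v x : V} {M : ℕ} {u : ℤ} {i : Fin 3} (h1 : v i + u / 2 ^ M < x i)
    (h2 : x i < v i + (u + 1) / 2 ^ M) : x ∉ lat v M i := by
  rintro ⟨z, hz⟩
  rw [hz] at h1 h2
  have hp : (0:ℝ) < 2 ^ M := by positivity
  have h3 : (u:ℝ) / 2 ^ M < z / 2 ^ M := by linarith
  have h4 : (z:ℝ) / 2 ^ M < (u + 1) / 2 ^ M := by linarith
  rw [div_lt_div_iff_of_pos_right hp] at h3 h4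
  have h5 : u < z := by exact_mod_cast h3
  have h6 : z < u + 1 := by exact_mod_cast h4
  omega

theorem osq_not_skel {v x : V} {M : ℕ} {u : Fin 3 → ℤ}
    (hx : x ∈ osq (sc v ((M, u), 2)) 2 (1 / 2 / 2 ^ M)) : x ∉ skel v M := by
  rintro ⟨i, j, hij, h1, h2⟩
  have h := (mem_osq.1 hx).2
  by_cases hi : i = 2
  · have hj : j ≠ 2 := fun h => hij (hi.trans h.symm)
    exact not_lat (h j hj).1 (h j hj).2 h2
  · exact not_lat (h i hi).1 (h i hi).2 h1

theorem osq_squ {v x : V} {M : ℕ} {u u' : Fin 3 → ℤ}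
    (hx : x ∈ osq (sc v ((M, u), 2)) 2 (1 / 2 / 2 ^ M)) (hx' : x ∈ squ v ((M, u'), 2)) :
    u = u' := by
  obtain ⟨h1, h2⟩ := mem_osq.1 hx
  obtain ⟨h3, h4⟩ := hx'
  have hp : (0:ℝ) < 2 ^ M := by positivity
  funext l
  by_cases hl : l = 2
  · subst hl
    simp only at h3
    rw [h1] at h3
    have h5 : (u 2 : ℝ) / 2 ^ M = u' 2 / 2 ^ M := by linarith
    rw [div_left_inj' hp.ne'] at h5
    exact_mod_cast h5
  · obtain ⟨a1, a2⟩ := h2 l hl
    obtain ⟨b1, b2⟩ := h4 l hl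
    simp only at b1 b2
    have h5 : (u l : ℝ) / 2 ^ M < (u' l + 1) / 2 ^ M := by linarith
    have h6 : (u' l : ℝ) / 2 ^ M < (u l + 1) / 2 ^ M := by linarith
    rw [div_lt_div_iff_of_pos_right hp] at h5 h6
    have h7 : u l < u' l + 1 := by exact_mod_cast h5
    have h8 : u' l < u l + 1 := by exact_mod_cast h6
    omega

/-- the squares of the layers -/
def lay (R : ℤ) (u : Fin 3 → ℤ) : Prop := R ∣ u 1 ∨ R ∣ u 1 + 1

instance (R : ℤ) : DecidablePred (lay R) := fun u => by unfold lay; infer_instance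

theorem isCompact_squ (v : V) (s : Idx × Fin 3) : IsClosed (squ v s) := by
  have : squ v s = {x : V | x s.2 = v s.2 + s.1.2 s.2 / 2 ^ s.1.1} ∩ ⋂ k : Fin 3,
      {x : V | k ≠ s.2 → v k + s.1.2 k / 2 ^ s.1.1 ≤ x k ∧ x k ≤ v k + (s.1.2 k + 1) / 2 ^ s.1.1} := by
    ext x; simp [squ]
  rw [this]
  refine (isClosed_eq (continuous_apply _) continuous_const).inter (isClosed_iInter fun k => ?_)
  by_cases h : k = s.2
  · simp [h]
  · simp only [ne_eq, h, not_false_eq_true, true_implies]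
    exact (isClosed_le continuous_const (continuous_apply _)).inter
      (isClosed_le (continuous_apply _) continuous_const)

/-- the open core -/
def oc (v : V) (n : ℕ) : Set V :=
  {x | ∀ i, v i + 2 / 2 ^ n < x i ∧ x i < v i + (2 ^ n - 3) / 2 ^ n}

theorem isOpen_oc (v : V) (n : ℕ) : IsOpen (oc v n) := by
  have : oc v n = ⋂ i : Fin 3, {x : V | v i + 2 / 2 ^ n < x i ∧ x i < v i + (2 ^ n - 3) / 2 ^ n} := by
    ext x; simp [oc]
  rw [this]
  exact isOpen_iInter_of_finite fun i =>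
    (isOpen_lt continuous_const (continuous_apply i)).inter
      (isOpen_lt (continuous_apply i) continuous_const)

theorem oc_sub (v : V) (n : ℕ) : oc v n ⊆ core v n := fun _ hx i => ⟨(hx i).1.le, (hx i).2.le⟩

/-- strict bounds of the middle height -/
theorem mid_bounds' (v : V) {n : ℕ} {z : ℤ} (h1 : 2 ≤ z) (h2 : z < 2 ^ n - 3) :
    v 2 + 2 / 2 ^ n < mid v n z ∧ mid v n z < v 2 + (2 ^ n - 3) / 2 ^ n := by
  have h0 : (0:ℝ) < 2 ^ n := by positivity
  rw [mid, pow_succ]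
  constructor
  · have : (2:ℝ) ≤ z := by exact_mod_cast h1
    have h5 : (2:ℝ) / 2 ^ n < (2 * z + 1) / (2 ^ n * 2) := by
      rw [div_lt_div_iff₀ (by positivity) (by positivity)]
      nlinarith
    linarith
  · have : (z:ℝ) + 1 ≤ 2 ^ n - 3 := by exact_mod_cast h2
    have h5 : (2 * (z:ℝ) + 1) / (2 ^ n * 2) < (2 ^ n - 3) / 2 ^ n := by
      rw [div_lt_div_iff₀ (by positivity) (by positivity)]
      nlinarith
    linarith

/-- the mid height is not a lattice height of generation `n` -/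
theorem mid_ne (v : V) (n : ℕ) (z w : ℤ) : mid v n z ≠ v 2 + w / 2 ^ n := by
  intro h
  have h0 : (0:ℝ) < 2 ^ n := by positivity
  rw [mid, pow_succ, add_right_inj, div_eq_div_iff (by positivity) (by positivity)] at h
  have h1 : (2 * (z:ℝ) + 1) = w * 2 := by
    have h2 : (2 * (z:ℝ) + 1) * 2 ^ n = (w * 2) * 2 ^ n := by linarith
    exact mul_right_cancel₀ h0.ne' h2
  have h3 : 2 * z + 1 = w * 2 := by exact_mod_cast h1
  omega

theorem osq_sub_oc {v : V} {n M : ℕ} {z : ℤ} (hM : n + 1 ≤ M) (h1 : 2 ≤ z) (h2 : z < 2 ^ n - 3)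
    {u : Fin 3 → ℤ} (hu : u ∈ grid n M z) :
    osq (sc v ((M, u), 2)) 2 (1 / 2 / 2 ^ M) ⊆ oc v n := by
  intro x hx i
  obtain ⟨h3, h4⟩ := mem_osq.1 hx
  by_cases hi : i = 2
  · subst hi
    rw [h3, Vale.Agent.P073.LOC560.Mid.height v hM hu]
    exact mid_bounds' v h1 h2
  · obtain ⟨h5, h6⟩ := (mem_grid.1 hu).2 i hi
    have h7 := Vale.Agent.P073.LOC560.Mid.div_lo (by omega) h5
    have h8 := Vale.Agent.P073.LOC560.Mid.div_hi (by omega) h6
    obtain ⟨h9, h10⟩ := h4 i hi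
    constructor <;> linarith

end P073.LOC865
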