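import Vale.Agent.P073.LOC865.Mids

/-!
# P073, block LOC, rank 1: the squeeze in the squares of the layers, existence
-/

open Set Metric Topology Filter MeasureTheory
open scoped ENNReal ContDiff

namespace P073.LOC865

open Vale.Agent.P073.St (V IsDiffeo)
open Vale.Agent.P073.SQ (ev cube SuppDiffeo dE faceE edgesE)
open Vale.Agent.P073.AB (Idx pt edge eInt squ sqE)
open Vale.Agent.P073.AB.P86 (sc)
open Vale.Agent.P073.LOC (core Q1 mid gInt OE)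
open Vale.Agent.P073.LOC560.Mid (grid mem_grid)

theorem osq_not_out {v : V} {n m M : ℕ} {z : ℤ} (h : Vale.Agent.P073.LOC.G308.Dat v n m)
    (hM : n + 1 ≤ M) (h1 : 2 ≤ z) (h2 : z < 2 ^ n - 3) {u : Fin 3 → ℤ} (hu : u ∈ grid n M z)
    {x : V} (hx : x ∈ osq (sc v ((M, u), 2)) 2 (1 / 2 / 2 ^ M)) {e : Idx × Fin 3}
    (he : e ∈ OE v n) : x ∉ edge v e := by
  intro hxe
  have h3 := osq_sub_oc hM h1 h2 hu hx
  have hp : (0:ℝ) < 2 ^ n := by positivity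
  have e1 : (1:ℝ) / 2 ^ n ≤ 2 / 2 ^ n := div_le_div_of_nonneg_right (by norm_num) hp.le
  have e2 : ((2:ℝ) ^ n - 3) / 2 ^ n ≤ (2 ^ n - 2) / 2 ^ n :=
    div_le_div_of_nonneg_right (by linarith) hp.le
  rcases Vale.Agent.P073.LOC.G308.awayK h 2 he hxe with ⟨i, -, h4 | h4⟩ | h4 | h4 | ⟨w, h4⟩
  · linarith [(h3 i).1]
  · linarith [(h3 i).2]
  · linarith [(h3 2).1]
  · linarith [(h3 2).2]
  · have h5 := (mem_osq.1 hx).1
    rw [Vale.Agent.P073.LOC560.Mid.height v hM hu] at h5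
    exact mid_ne v n z w (h5 ▸ h4)

/-- **the squeeze in the squares of the layers** -/
theorem exists_mids (p : ℝ) (hp : 1 ≤ p) (hp2 : p < 2) : ∃ C : ℝ, 0 < C ∧
    ∀ (P : Par) (g₀ : V → V) (F : Finset (Idx × Fin 3)) (ε : ℝ), ContDiffOn ℝ 1 g₀ Q1 → 0 < ε →
      (∀ e ∈ F, e ∈ OE P.v P.n) → ∃ (K : Set V) (s : V → V), SuppDiffeo K s ∧
        K ⊆ P.KK ∧ (∀ e : Idx × Fin 3, e.1.1 = P.M → Disjoint (edge P.v e) K) ∧
        (∀ e ∈ F, Disjoint (edge P.v e) K) ∧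
        ∀ z : ℤ, 2 ≤ z → z < 2 ^ P.n - 3 → ∀ u ∈ grid P.n P.M z,
          (¬ lay P.R u → Disjoint (squ P.v ((P.M, u), 2)) K) ∧
          (lay P.R u → faceE p (g₀ ∘ s) (sc P.v ((P.M, u), 2)) 2 (1 / 2 / 2 ^ P.M) ≤
            ENNReal.ofReal C * edgesE p g₀ (sc P.v ((P.M, u), 2)) 2 (1 / 2 / 2 ^ P.M) +
              ENNReal.ofReal ε) := by
  obtain ⟨C, hC, hsq⟩ := exists_squeeze p hp hp2
  refine ⟨C.toReal + 1, by positivity, fun P g₀ F ε hg hε hF => ?_⟩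
  have hC' : C ≤ ENNReal.ofReal (C.toReal + 1) := by
    rw [← ENNReal.ofReal_toReal hC]
    apply ENNReal.ofReal_le_ofReal
    rw [ENNReal.toReal_ofReal ENNReal.toReal_nonneg]
    linarith
  have hM1 : P.n + 1 ≤ P.M := by have := P.hm; have := P.hM; omega
  have hdat : Vale.Agent.P073.LOC.G308.Dat P.v P.n P.m := ⟨P.hv, P.hn, P.hm⟩
  set Z : Finset ℤ := Finset.Ico 2 (2 ^ P.n - 3) with hZ
  set LL : Finset (Fin 3 → ℤ) := Z.biUnion fun z => (grid P.n P.M z).filter (lay P.R) with hLL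
  set NN : Finset (Fin 3 → ℤ) := Z.biUnion fun z => (grid P.n P.M z).filter fun u => ¬ lay P.R u
    with hNN
  have mLL : ∀ u, u ∈ LL ↔ ∃ z, (2 ≤ z ∧ z < 2 ^ P.n - 3) ∧ u ∈ grid P.n P.M z ∧ lay P.R u := by
    intro u
    simp only [hLL, hZ, Finset.mem_biUnion, Finset.mem_filter, Finset.mem_Ico]
  have mNN : ∀ u, u ∈ NN ↔ ∃ z, (2 ≤ z ∧ z < 2 ^ P.n - 3) ∧ u ∈ grid P.n P.M z ∧ ¬ lay P.R u := by
    intro u
    simp only [hNN, hZ, Finset.mem_biUnion, Finset.mem_filter, Finset.mem_Ico]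
  set D : Set V := skel P.v P.M ∪ (⋃ u ∈ NN, squ P.v ((P.M, u), 2)) ∪ ⋃ e ∈ F, edge P.v e with hD
  have hDc : IsClosed D := by
    refine ((isClosed_skel _ _).union ?_).union ?_
    · exact NN.finite_toSet.isClosed_biUnion fun u _ => isCompact_squ _ _
    · exact F.finite_toSet.isClosed_biUnion fun e _ => (isCompact_edge _ _).isClosed
  have hρ : (0:ℝ) < 1 / 2 / 2 ^ P.M := by positivity
  have g1 : ∀ i : {u // u ∈ LL}, osq (sc P.v ((P.M, i.1), 2)) 2 (1 / 2 / 2 ^ P.M) ⊆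
      oc P.v P.n ∩ Dᶜ := by
    rintro ⟨u, hu⟩ x hx
    obtain ⟨z, ⟨hz1, hz2⟩, hg1, hl⟩ := (mLL u).1 hu
    refine ⟨osq_sub_oc hM1 hz1 hz2 hg1 hx, ?_⟩
    rintro ((h3 | h3) | h3)
    · exact osq_not_skel hx h3
    · obtain ⟨u', hu', h4⟩ := mem_iUnion₂.1 h3
      obtain ⟨z', -, -, hl'⟩ := (mNN u').1 hu'
      have := osq_squ hx h4
      subst this
      exact hl' hl
    · obtain ⟨e, he, h4⟩ := mem_iUnion₂.1 h3
      exact osq_not_out hdat hM1 hz1 hz2 hg1 hx (hF e he) h4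
  have g2 : ∀ i : {u // u ∈ LL}, csq (sc P.v ((P.M, i.1), 2)) 2 (1 / 2 / 2 ^ P.M) ⊆ Q1 := by
    rintro ⟨u, hu⟩
    obtain ⟨z, ⟨hz1, hz2⟩, hg1, hl⟩ := (mLL u).1 hu
    rw [csq_eq]
    exact (Vale.Agent.P073.LOC560.Mid.squ_sub_core P.v hM1 hz1 hz2 hg1).trans P.core_sub_Q1
  have g3 : ∀ i j : {u // u ∈ LL}, i ≠ j → Disjoint (osq (sc P.v ((P.M, i.1), 2)) 2 (1 / 2 / 2 ^ P.M))
      (csq (sc P.v ((P.M, j.1), 2)) 2 (1 / 2 / 2 ^ P.M)) := by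
    rintro ⟨u, hu⟩ ⟨u', hu'⟩ hne
    rw [csq_eq, Set.disjoint_left]
    intro x hx hx'
    exact hne (Subtype.ext (osq_squ hx hx'))
  obtain ⟨K, s, h1, h2, -, -, h5⟩ := hsq {u // u ∈ LL} (fun u => sc P.v ((P.M, u.1), 2))
    (fun _ => 2) (fun _ => 1 / 2 / 2 ^ P.M) (oc P.v P.n ∩ Dᶜ) Q1 g₀ (ENNReal.ofReal ε)
    (fun _ => hρ) ((isOpen_oc _ _).inter hDc.isOpen_compl) g1 isOpen_Q1' g2 hg
    (by rw [ne_eq, ENNReal.ofReal_eq_zero, not_le]; exact hε) g3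
  refine ⟨K, s, h1, fun x hx => P.core_sub_KK (oc_sub _ _ (h2 hx).1), ?_, ?_, ?_⟩
  · intro e he
    rw [Set.disjoint_left]
    intro x hx hxK
    exact (h2 hxK).2 (Or.inl (Or.inl (he ▸ edge_sub_skel hx)))
  · intro e he
    rw [Set.disjoint_left]
    intro x hx hxK
    exact (h2 hxK).2 (Or.inr (mem_iUnion₂.2 ⟨e, he, hx⟩))
  · intro z hz1 hz2 u hu
    refine ⟨fun hl => ?_, fun hl => ?_⟩
    · rw [Set.disjoint_left]
      intro x hx hxK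
      exact (h2 hxK).2 (Or.inl (Or.inr (mem_iUnion₂.2 ⟨u, (mNN u).2 ⟨z, ⟨hz1, hz2⟩, hu, hl⟩, hx⟩)))
    · have h6 := h5 ⟨u, (mLL u).2 ⟨z, ⟨hz1, hz2⟩, hu, hl⟩⟩
      refine h6.trans ?_
      gcongr

end P073.LOC865
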