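import Vale.Agent.P073.LOC865.Spec
import Vale.Agent.P073.LR.Mu
import Vale.Agent.P073.LR.Coll

/-!
# P073, block LOC, rank 1: the collapse function

`T = 1 / 2 ^ n` (coarse), `t = 1 / 2 ^ m` (width of the strips), `a = 1 / 2 ^ M` (half thickness of
the layers).
-/

open Set Metric Topology Filter MeasureTheory

namespace P073.LOC865

open Vale.Agent.P073.St (V)
open Vale.Agent.P073.SQ (ev cube SuppDiffeo)
open Vale.Agent.P073.LR (nu mu lam AffNear)
open Vale.Agent.P073.LOC (core Q1 mid)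

/-- the parameters -/
structure Par where
  v : V
  n : ℕ
  m : ℕ
  M : ℕ
  hv : ∀ i, 0 ≤ v i ∧ v i < 1 / 2 ^ n
  hn : 3 ≤ n
  hm : n + 2 ≤ m
  hM : m + 2 ≤ M

namespace Par

variable (P : Par)

/-- coarse mesh -/
noncomputable def T : ℝ := 1 / 2 ^ P.n

/-- width of the strips -/
noncomputable def t : ℝ := 1 / 2 ^ P.m

/-- fine mesh -/
noncomputable def a : ℝ := 1 / 2 ^ P.M

/-- `k * a` is the half thickness of the main part of a strip -/
def k : ℕ := 2 ^ (P.M - P.m - 1) - 1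

/-- centre of the core -/
noncomputable def q : V := fun i => P.v i + (1 - P.T) / 2

/-- half side of the core -/
noncomputable def r : ℝ := (1 - 5 * P.T) / 2

/-- first strip -/
def i0 : ℤ := 2 * 2 ^ (P.m - P.n)

/-- end of the strips -/
def i1 : ℤ := (2 ^ P.n - 3) * 2 ^ (P.m - P.n)

/-- middle of the strip `i` -/
noncomputable def d (i : ℤ) : ℝ := P.v 1 + (i + 1 / 2) * P.t

/-- shifted centre -/
noncomputable def qi (i : ℤ) : V := Function.update P.q 1 (P.d i)

/-- the collapse function of the strip `i` -/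
noncomputable def mui (i : ℤ) : V → ℝ := mu 1 (P.qi i 1) P.a P.k (lam 1 (P.qi i) (P.r + P.a) P.a P.k)

/-- the strip of a point -/
noncomputable def fl (x : V) : ℤ := ⌊(x 1 - P.v 1) / P.t⌋

/-- the collapse function -/
noncomputable def mm (x : V) : ℝ := ∑ i ∈ Finset.Ico P.i0 P.i1, P.mui i x

theorem T_pos : 0 < P.T := by unfold T; positivity

theorem t_pos : 0 < P.t := by unfold t; positivity

theorem a_pos : 0 < P.a := by unfold a; positivity

theorem T_le : P.T ≤ 1 / 8 := by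
  unfold T
  have h : (2:ℝ) ^ 3 ≤ 2 ^ P.n := pow_le_pow_right₀ (by norm_num) P.hn
  rw [div_le_div_iff₀ (by positivity) (by norm_num)]
  linarith

theorem t_le : P.t ≤ P.T / 4 := by
  unfold T t
  have h : (2:ℝ) ^ (P.n + 2) ≤ 2 ^ P.m := pow_le_pow_right₀ (by norm_num) P.hm
  rw [div_div, div_le_div_iff₀ (by positivity) (by positivity)]
  rw [pow_add] at h
  linarith

theorem a_le : P.a ≤ P.t / 4 := by
  unfold t a
  have h : (2:ℝ) ^ (P.m + 2) ≤ 2 ^ P.M := pow_le_pow_right₀ (by norm_num) P.hM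
  rw [div_div, div_le_div_iff₀ (by positivity) (by positivity)]
  rw [pow_add] at h
  linarith

theorem k_cast : (P.k : ℝ) + 1 = 2 ^ (P.M - P.m - 1) := by
  unfold k
  have h : 1 ≤ 2 ^ (P.M - P.m - 1) := Nat.one_le_two_pow
  rw [Nat.cast_sub h]
  push_cast
  ring

theorem k_pos : 0 < P.k := by
  unfold k
  have h : 2 ^ 1 ≤ 2 ^ (P.M - P.m - 1) := Nat.pow_le_pow_right (by norm_num) (by have := P.hM; omega)
  omega

theorem ka : ((P.k : ℝ) + 1) * P.a = P.t / 2 := by
  rw [k_cast]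
  unfold a t
  have h : P.M = (P.M - P.m - 1) + (P.m + 1) := by have := P.hM; omega
  have h2 : (2:ℝ) ^ P.M = 2 ^ (P.M - P.m - 1) * (2 ^ P.m * 2) := by
    conv_lhs => rw [h, pow_add, pow_succ (n := P.m)]
  rw [h2]
  field_simp

theorem i0_t : (P.i0 : ℝ) * P.t = 2 * P.T := by
  unfold i0 t T
  have h : P.m = (P.m - P.n) + P.n := by have := P.hm; omega
  have h2 : (2:ℝ) ^ P.m = 2 ^ (P.m - P.n) * 2 ^ P.n := by
    conv_lhs => rw [h, pow_add]
  rw [h2]
  push_cast
  field_simp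

theorem i1_t : (P.i1 : ℝ) * P.t = 1 - 3 * P.T := by
  unfold i1 t T
  have h : P.m = (P.m - P.n) + P.n := by have := P.hm; omega
  have h2 : (2:ℝ) ^ P.m = 2 ^ (P.m - P.n) * 2 ^ P.n := by
    conv_lhs => rw [h, pow_add]
  rw [h2]
  push_cast
  field_simp

theorem r_pos : 0 < P.r := by
  have := P.T_le
  unfold r
  linarith

theorem mem_core {x : V} : x ∈ core P.v P.n ↔
    ∀ i, P.v i + 2 * P.T ≤ x i ∧ x i ≤ P.v i + (1 - 3 * P.T) := by
  have h1 : (2:ℝ) / 2 ^ P.n = 2 * P.T := by unfold T; ring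
  have h2 : ((2:ℝ) ^ P.n - 3) / 2 ^ P.n = 1 - 3 * P.T := by
    unfold T; field_simp
  show (∀ i, P.v i + 2 / 2 ^ P.n ≤ x i ∧ x i ≤ P.v i + (2 ^ P.n - 3) / 2 ^ P.n) ↔ _
  rw [h1, h2]

theorem core_eq : core P.v P.n = cube P.q P.r := by
  ext x
  rw [mem_core]
  show _ ↔ ∀ i, |x i - P.q i| ≤ P.r
  refine forall_congr' fun i => ?_
  rw [abs_le]
  unfold q r
  constructor
  · rintro ⟨h1, h2⟩; constructor <;> linarith
  · rintro ⟨h1, h2⟩; constructor <;> linarith

/-! ### one strip -/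

theorem qi_one (i : ℤ) : P.qi i 1 = P.d i := Function.update_self ..

theorem qi_of_ne (i : ℤ) {l : Fin 3} (h : l ≠ 1) : P.qi i l = P.q l := Function.update_of_ne h ..

theorem ev_one_abs (i : Fin 3) : |ev 1 i| ≤ 1 := by
  unfold ev
  by_cases h : i = 1
  · subst h; simp
  · simp [h]

theorem mui_spec (i : ℤ) :
    (∀ x, ∀ s : ℝ, 0 ≤ s → P.mui i x - s ≤ P.mui i (x + s • ev 1)) ∧
    LipschitzWith (2 * (P.k + 1)) (P.mui i) ∧
    (∀ x : V, P.t / 2 ≤ |x 1 - P.d i| ∨ (∃ l, l ≠ 1 ∧ P.r + P.t / 2 ≤ |x l - P.q l|) →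
      P.mui i x = 0) ∧
    (∀ x : V, |x 1 - P.d i| ≤ P.k * P.a → (∀ l, l ≠ 1 → |x l - P.q l| ≤ P.r + P.a) →
      P.mui i x = -(x 1 - P.d i)) ∧
    ∀ x w : V, {s : ℝ | ¬ ∃ c, AffNear (P.mui i) (x + s • w) w c}.Countable := by
  obtain ⟨h1, h2, h3, h4, h5⟩ := Vale.Agent.P073.LR.specMu 1 (P.qi i) (ev 1) (P.r + P.a) P.a P.k
    P.a_pos P.k_pos (by linarith [P.r_pos, P.a_pos]) (by simp [ev]) ev_one_abs
  refine ⟨h1, h2, fun x hx => h3 x ?_, fun x hx hx' => ?_, h5⟩
  · rcases hx with hx | ⟨l, hl, hx⟩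
    · left; rw [ka, qi_one]; exact hx
    · right
      refine ⟨l, hl, ?_⟩
      rw [qi_of_ne P i hl]
      have : P.r + P.a + P.k * P.a = P.r + P.t / 2 := by have := P.ka; linarith
      rw [this]; exact hx
  · have := h4 x (by rw [qi_one]; exact hx) (fun l hl => by rw [qi_of_ne P i hl]; exact hx' l hl)
    rw [qi_one] at this
    exact this

/-- the collapse function in one variable -/
noncomputable def g (s : ℝ) : ℝ := nu P.a P.k (-s) (P.k * P.a) - nu P.a P.k s (P.k * P.a)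

theorem mui_eq_g (i : ℤ) {x : V} (hx : ∀ l, l ≠ 1 → |x l - P.q l| ≤ P.r + P.a) :
    P.mui i x = P.g (x 1 - P.d i) := by
  have h1 : lam 1 (P.qi i) (P.r + P.a) P.a P.k x = P.k * P.a := by
    have : (fun l => if l = 1 then (0:ℝ) else max 0 (|x l - P.qi i l| - (P.r + P.a))) = 0 := by
      funext l
      by_cases hl : l = 1
      · simp [hl]
      · rw [if_neg hl, qi_of_ne P i hl, max_eq_left (by linarith [hx l hl])]
        rfl
    unfold lam
    rw [this, norm_zero, sub_zero]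
  unfold mui mu g
  rw [h1, qi_one]
  congr 2
  ring

theorem g_main {s : ℝ} (hs : |s| ≤ P.k * P.a) : P.g s = -s := by
  have hk : (1:ℝ) ≤ P.k := by exact_mod_cast P.k_pos
  have ha := P.a_pos
  have h0 : 0 ≤ P.k * P.a := by positivity
  have key : ∀ u : ℝ, u ≤ P.k * P.a → nu P.a P.k u (P.k * P.a) = max 0 u := by
    intro u hu
    unfold nu
    have h1 : u ≤ P.k * ((P.k + 1) * P.a - u) := by nlinarith
    rw [min_eq_left (le_min h1 hu)]
  obtain ⟨h1, h2⟩ := abs_le.1 hs
  unfold g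
  rw [key _ (by linarith), key _ h2]
  rcases le_total 0 s with h | h
  · rw [max_eq_left (by linarith), max_eq_right h]; ring
  · rw [max_eq_right (by linarith), max_eq_left h]; ring

theorem nu_layer {s : ℝ} (hs : P.k * P.a ≤ s) (hs' : s ≤ P.t / 2) :
    nu P.a P.k s (P.k * P.a) = P.k * (P.t / 2 - s) := by
  have hk : (1:ℝ) ≤ P.k := by exact_mod_cast P.k_pos
  have ha := P.a_pos
  have hka := P.ka
  have h0 : (0:ℝ) ≤ P.k * (P.t / 2 - s) := mul_nonneg (by linarith) (by linarith)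
  have h1 : (P.k : ℝ) * (P.t / 2 - s) ≤ P.k * P.a := by
    apply mul_le_mul_of_nonneg_left _ (by linarith)
    linarith
  have h2 : (P.k : ℝ) * (P.t / 2 - s) ≤ s := h1.trans hs
  unfold nu
  rw [hka, min_eq_left h1, min_eq_right h2, max_eq_right h0]

theorem g_pos {s : ℝ} (hs : P.k * P.a ≤ s) (hs' : s ≤ P.t / 2) :
    P.g s = -(P.k * (P.t / 2 - s)) := by
  have ha := P.a_pos
  have h0 : 0 ≤ P.k * P.a := by positivity
  unfold g
  rw [P.nu_layer hs hs', Vale.Agent.P073.LR.nu_of_nonpos _ _ (by linarith : -s ≤ 0)]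
  ring

theorem g_neg {s : ℝ} (hs : P.k * P.a ≤ -s) (hs' : -s ≤ P.t / 2) :
    P.g s = P.k * (P.t / 2 + s) := by
  have ha := P.a_pos
  have h0 : 0 ≤ P.k * P.a := by positivity
  unfold g
  rw [P.nu_layer hs hs', Vale.Agent.P073.LR.nu_of_nonpos _ _ (by linarith : s ≤ 0)]
  ring

/-! ### all strips -/

theorem fl_le (x : V) : (P.fl x : ℝ) * P.t ≤ x 1 - P.v 1 := by
  have := Int.floor_le ((x 1 - P.v 1) / P.t)
  rwa [le_div_iff₀ P.t_pos] at this

theorem lt_fl (x : V) : x 1 - P.v 1 < ((P.fl x : ℝ) + 1) * P.t := by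
  have := Int.lt_floor_add_one ((x 1 - P.v 1) / P.t)
  rwa [div_lt_iff₀ P.t_pos] at this

theorem far {x : V} {i : ℤ} (h : i ≠ P.fl x) : P.t / 2 ≤ |x 1 - P.d i| := by
  have h1 := P.fl_le x
  have h2 := P.lt_fl x
  have ht := P.t_pos
  unfold d
  rcases lt_or_gt_of_ne h with h | h
  · have h3 : (i : ℝ) + 1 ≤ P.fl x := by exact_mod_cast h
    have h4 : ((i : ℝ) + 1) * P.t ≤ P.fl x * P.t := mul_le_mul_of_nonneg_right h3 ht.le
    refine le_trans ?_ (le_abs_self _)
    linarith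
  · have h3 : (P.fl x : ℝ) + 1 ≤ i := by exact_mod_cast h
    have h4 : ((P.fl x : ℝ) + 1) * P.t ≤ i * P.t := mul_le_mul_of_nonneg_right h3 ht.le
    refine le_trans ?_ (neg_le_abs _)
    linarith

theorem mm_eq (x : V) : P.mm x = if P.fl x ∈ Finset.Ico P.i0 P.i1 then P.mui (P.fl x) x else 0 := by
  unfold mm
  split_ifs with h
  · rw [Finset.sum_eq_single_of_mem _ h]
    intro i _ hi
    exact (P.mui_spec i).2.2.1 x (Or.inl (P.far hi))
  · refine Finset.sum_eq_zero fun i hi => ?_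
    exact (P.mui_spec i).2.2.1 x (Or.inl (P.far fun h' => h (h' ▸ hi)))

theorem mm_of_strip {x : V} {i : ℤ} (h1 : |x 1 - P.d i| < P.t / 2) (hi : i ∈ Finset.Ico P.i0 P.i1) :
    P.mm x = P.mui i x := by
  have : i = P.fl x := by
    by_contra h
    exact absurd (P.far h) (not_le.2 h1)
  rw [mm_eq, ← this, if_pos hi]

theorem mm_of_line {x : V} {j : ℤ} (h : x 1 = P.v 1 + j * P.t) : P.mm x = 0 := by
  unfold mm
  refine Finset.sum_eq_zero fun i _ => (P.mui_spec i).2.2.1 x (Or.inl ?_)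
  have ht := P.t_pos
  unfold d
  rcases le_or_gt j i with h' | h'
  · have h3 : (j : ℝ) ≤ i := by exact_mod_cast h'
    have h4 : (j : ℝ) * P.t ≤ i * P.t := mul_le_mul_of_nonneg_right h3 ht.le
    refine le_trans ?_ (neg_le_abs _)
    rw [h]; linarith
  · have h3 : (i : ℝ) + 1 ≤ j := by exact_mod_cast h'
    have h4 : ((i : ℝ) + 1) * P.t ≤ j * P.t := mul_le_mul_of_nonneg_right h3 ht.le
    refine le_trans ?_ (le_abs_self _)
    rw [h]; linarith

theorem add_ev_one (x : V) (s : ℝ) : (x + s • ev 1) 1 = x 1 + s := by simp [ev]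

theorem add_ev_of_ne (x : V) (s : ℝ) {l j : Fin 3} (h : l ≠ j) : (x + s • ev j) l = x l := by
  simp [ev, h]

theorem upper (x : V) : x 1 + P.mm x ≤ P.v 1 + ((P.fl x : ℝ) + 1) * P.t := by
  rw [mm_eq]
  have h2 := P.lt_fl x
  split_ifs with h
  · set s : ℝ := P.v 1 + ((P.fl x : ℝ) + 1) * P.t - x 1 with hs
    have hs0 : 0 ≤ s := by rw [hs]; linarith
    have h3 := (P.mui_spec (P.fl x)).1 x s hs0
    have h4 : P.mui (P.fl x) (x + s • ev 1) = 0 := by
      refine (P.mui_spec _).2.2.1 _ (Or.inl ?_)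
      rw [add_ev_one]
      have : x 1 + s - P.d (P.fl x) = P.t / 2 := by rw [hs]; unfold d; ring
      rw [this]; exact le_abs_self _
    rw [h4] at h3
    linarith
  · linarith

theorem lower (x : V) : P.v 1 + (P.fl x : ℝ) * P.t ≤ x 1 + P.mm x := by
  rw [mm_eq]
  have h2 := P.fl_le x
  split_ifs with h
  · set s : ℝ := x 1 - (P.v 1 + (P.fl x : ℝ) * P.t) with hs
    have hs0 : 0 ≤ s := by rw [hs]; linarith
    have h3 := (P.mui_spec (P.fl x)).1 (x - s • ev 1) s hs0
    have e1 : x - s • ev 1 + s • ev 1 = x := by abel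
    have h4 : P.mui (P.fl x) (x - s • ev 1) = 0 := by
      refine (P.mui_spec _).2.2.1 _ (Or.inl ?_)
      have e2 : (x - s • ev 1) 1 = x 1 - s := by simp [ev]
      rw [e2]
      have : x 1 - s - P.d (P.fl x) = -(P.t / 2) := by rw [hs]; unfold d; ring
      rw [this, abs_neg]; exact le_abs_self _
    rw [h4, e1] at h3
    linarith
  · linarith

theorem mm_mono (x : V) (s : ℝ) (hs : 0 ≤ s) : P.mm x - s ≤ P.mm (x + s • ev 1) := by
  have ht := P.t_pos
  set y : V := x + s • ev 1 with hy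
  have hy1 : y 1 = x 1 + s := add_ev_one x s
  have hfl : P.fl x ≤ P.fl y := by
    unfold fl
    refine Int.floor_le_floor ?_
    rw [hy1]
    exact div_le_div_of_nonneg_right (by linarith) ht.le
  rcases eq_or_lt_of_le hfl with h | h
  · rw [mm_eq, mm_eq, ← h]
    split_ifs with h'
    · exact (P.mui_spec _).1 x s hs
    · linarith
  · have h1 := P.upper x
    have h2 := P.lower y
    have h3 : (P.fl x : ℝ) + 1 ≤ P.fl y := by exact_mod_cast h
    have h4 := mul_le_mul_of_nonneg_right h3 ht.le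
    linarith

theorem mm_lip : ∃ L : NNReal, LipschitzWith L P.mm := by
  have h : ∀ s : Finset ℤ, ∃ L : NNReal, LipschitzWith L fun x => ∑ i ∈ s, P.mui i x := by
    intro s
    classical
    induction s using Finset.induction_on with
    | empty => exact ⟨0, by simp⟩
    | insert i s hi ih =>
      obtain ⟨L, hL⟩ := ih
      refine ⟨2 * (P.k + 1) + L, ?_⟩
      have := (P.mui_spec i).2.1.add hL
      simpa only [Finset.sum_insert hi] using this
  exact h _

/-- the support -/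
theorem of_mm_ne {x : V} (h : P.mm x ≠ 0) : (∃ i ∈ Finset.Ico P.i0 P.i1, |x 1 - P.d i| < P.t / 2) ∧
    ∀ l, l ≠ 1 → |x l - P.q l| < P.r + P.t / 2 := by
  rw [mm_eq] at h
  split_ifs at h with h1
  · have h2 := (P.mui_spec (P.fl x)).2.2.1 x
    constructor
    · refine ⟨_, h1, ?_⟩
      by_contra hcon
      exact h (h2 (Or.inl (not_lt.1 hcon)))
    · intro l hl
      by_contra hcon
      exact h (h2 (Or.inr ⟨l, hl, not_lt.1 hcon⟩))
  · exact absurd rfl h

theorem strip_in {s : ℝ} {i : ℤ} (hi : i ∈ Finset.Ico P.i0 P.i1) (h : |s - P.d i| ≤ P.t / 2) :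
    P.v 1 + 2 * P.T ≤ s ∧ s ≤ P.v 1 + (1 - 3 * P.T) := by
  rw [Finset.mem_Ico] at hi
  have ht := P.t_pos
  have h1 : (P.i0 : ℝ) * P.t ≤ i * P.t :=
    mul_le_mul_of_nonneg_right (by exact_mod_cast hi.1) ht.le
  have h2 : ((i : ℝ) + 1) * P.t ≤ P.i1 * P.t := by
    refine mul_le_mul_of_nonneg_right ?_ ht.le
    have := hi.2
    exact_mod_cast this
  rw [i0_t] at h1
  rw [i1_t] at h2
  obtain ⟨h3, h4⟩ := abs_le.1 h
  unfold d at h3 h4
  constructor <;> linarith

/-- the compact set in which the collapse lives -/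
noncomputable def KK : Set V := cube P.q (P.r + P.T)

theorem tsupport_mm : tsupport P.mm ⊆ interior P.KK := by
  have ht := P.t_pos
  have h1 : Function.support P.mm ⊆ closedBall P.q (P.r + P.t / 2) := by
    intro x hx
    obtain ⟨⟨i, hi, h2⟩, h3⟩ := P.of_mm_ne hx
    rw [mem_closedBall, dist_pi_le_iff (by linarith [P.r_pos])]
    intro l
    rw [Real.dist_eq]
    by_cases hl : l = 1
    · subst hl
      have h4 := P.strip_in hi h2.le
      rw [abs_le]
      unfold q r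
      constructor <;> linarith
    · exact (h3 l hl).le
  have h2 : tsupport P.mm ⊆ closedBall P.q (P.r + P.t / 2) :=
    closure_minimal h1 isClosed_closedBall
  refine h2.trans ?_
  have h3 : closedBall P.q (P.r + P.t / 2) ⊆ ball P.q (P.r + P.T) :=
    closedBall_subset_ball (by have := P.t_le; linarith)
  refine h3.trans (interior_maximal ?_ isOpen_ball)
  intro x hx l
  rw [mem_ball, dist_pi_lt_iff (by linarith [P.r_pos, P.T_pos])] at hx
  exact (hx l).le

theorem isCompact_KK : IsCompact P.KK := by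
  have : P.KK = closedBall P.q (P.r + P.T) := by
    ext x
    rw [mem_closedBall, dist_pi_le_iff (by linarith [P.r_pos, P.T_pos])]
    rfl
  rw [this]
  exact isCompact_closedBall _ _

theorem KK_sub : P.KK ⊆ Q1 := by
  intro x hx i
  have h1 := abs_le.1 (hx i)
  obtain ⟨h2, h3⟩ := P.hv i
  have h4 := P.T_pos
  have h5 := P.T_le
  have h6 : P.v i < P.T := h3
  unfold q r at h1
  constructor <;> linarith [h1.1, h1.2]

theorem core_sub_KK : core P.v P.n ⊆ P.KK := by
  rw [core_eq]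
  intro x hx l
  have := hx l
  have := P.T_pos
  linarith

end Par

end P073.LOC865
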