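import Vale.Agent.P073.LOC865.Par
import Vale.Agent.P073.LR.Lim752
import Vale.Agent.P073.SQ.Prep

/-!
# P073, block LOC, rank 1: the approximating diffeomorphisms
-/

open Set Metric Topology Filter MeasureTheory
open scoped ENNReal ContDiff

namespace P073.LOC865

open Vale.Agent.P073.St (V IsDiffeo)
open Vale.Agent.P073.SQ (ev cube SuppDiffeo)
open Vale.Agent.P073.LR (nu mu lam AffNear)
open Vale.Agent.P073.LOC (core Q1 mid)

/-! ### `AffNear` -/

theorem AffNear.add' {f g : V → ℝ} {x w : V} {c c' : ℝ} (hf : AffNear f x w c)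
    (hg : AffNear g x w c') : AffNear (fun y => f y + g y) x w (c + c') := by
  obtain ⟨r, hr, h1⟩ := hf
  obtain ⟨r', hr', h2⟩ := hg
  refine ⟨min r r', lt_min hr hr', fun z hz s hs => ?_⟩
  show f (z + s • w) + g (z + s • w) = f z + g z + s * (c + c')
  rw [h1 z (hz.trans_le (min_le_left _ _)) s (hs.trans_le (min_le_left _ _)),
    h2 z (hz.trans_le (min_le_right _ _)) s (hs.trans_le (min_le_right _ _))]
  ring

theorem affNear_sum {ι : Type*} (F : Finset ι) {f : ι → V → ℝ} {x w : V}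
    (h : ∀ i ∈ F, ∃ c, AffNear (f i) x w c) : ∃ c, AffNear (fun y => ∑ i ∈ F, f i y) x w c := by
  classical
  induction F using Finset.induction_on with
  | empty => exact ⟨0, 1, one_pos, fun z _ s _ => by simp⟩
  | insert i F hi ih =>
    obtain ⟨c, hc⟩ := h i (Finset.mem_insert_self i F)
    obtain ⟨c', hc'⟩ := ih fun j hj => h j (Finset.mem_insert_of_mem hj)
    refine ⟨c + c', ?_⟩
    have := AffNear.add' hc hc'
    simpa only [Finset.sum_insert hi] using this

theorem AffNear.scale {f : V → ℝ} {x w : V} {c lam : ℝ} (hl : 0 < lam)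
    (h : AffNear f x (lam • w) c) : AffNear f x w (c / lam) := by
  obtain ⟨r, hr, h1⟩ := h
  refine ⟨min r (r * lam), lt_min hr (mul_pos hr hl), fun z hz s hs => ?_⟩
  have h2 : |s / lam| < r := by
    rw [abs_div, abs_of_pos hl, div_lt_iff₀ hl]
    exact hs.trans_le (min_le_right _ _)
  have h3 := h1 z (hz.trans_le (min_le_left _ _)) (s / lam) h2
  rw [smul_smul, div_mul_cancel₀ _ hl.ne'] at h3
  rw [h3]; ring

theorem AffNear.eq_zero {f : V → ℝ} {x w : V} {c : ℝ} (h : AffNear f x w c)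
    (h0 : ∃ r > 0, ∀ s : ℝ, |s| < r → f (x + s • w) = 0) : c = 0 := by
  obtain ⟨r, hr, h1⟩ := h
  obtain ⟨r', hr', h2⟩ := h0
  set s : ℝ := min r r' / 2 with hs
  have hm : 0 < min r r' := lt_min hr hr'
  have hs0 : 0 < s := by rw [hs]; linarith
  have hs1 : |s| < min r r' := by rw [abs_of_pos hs0, hs]; linarith
  have h3 := h1 x (by simpa using hr) s (hs1.trans_le (min_le_left _ _))
  rw [h2 s (hs1.trans_le (min_le_right _ _))] at h3
  have h4 := h2 0 (by simpa using hr')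
  rw [zero_smul, add_zero] at h4
  rw [h4] at h3
  have h5 : s * c = 0 := by linarith
  rcases mul_eq_zero.1 h5 with h6 | h6
  · exact absurd h6 hs0.ne'
  · exact h6

/-! ### diffeomorphisms with compact support -/

theorem SuppDiffeo.isDiffeo' {K U : Set V} {s : V → V} (h : SuppDiffeo K s) (hKU : K ⊆ U) :
    IsDiffeo U U s := by
  obtain ⟨t, ht, h1, h2⟩ := h.inv
  have htK : ∀ x, x ∉ K → t x = x := fun x hx => by
    conv_lhs => rw [← h.supp x hx]
    exact h1 x
  have hs : ∀ x ∈ U, s x ∈ U := fun x hx => by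
    by_cases hxK : x ∈ K
    · exact hKU (h.mapsTo hxK)
    · rw [h.supp x hxK]; exact hx
  have ht' : ∀ x ∈ U, t x ∈ U := fun x hx => by
    by_cases hxK : x ∈ K
    · apply hKU
      by_contra hcon
      have := h.supp (t x) hcon
      rw [h2] at this
      rw [← this] at hcon
      exact hcon hxK
    · rw [htK x hxK]; exact hx
  refine ⟨t, ⟨fun x hx => ⟨hs x hx, h1 x⟩, fun x hx => ⟨ht' x hx, h2 x⟩⟩, ?_, ?_⟩
  · exact contDiffOn_pi.1 h.smooth.contDiffOn
  · exact contDiffOn_pi.1 ht.contDiffOn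

namespace Par

variable (P : Par)

/-- the approximating diffeomorphisms -/
structure Sq (S : ℕ → V → V) (B : ℝ) : Prop where
  diffeo : ∀ N, SuppDiffeo P.KK (S N)
  close : ∀ N x, ‖S N x - (x + P.mm x • ev 1)‖ ≤ 1 / (N + 1)
  bd : ∀ N x w, ‖fderiv ℝ (S N) x w‖ ≤ B * ‖w‖
  line : ∀ N x, ∃ m : ℝ, S N x = x + m • ev 1
  lim : ∀ x w c, AffNear P.mm x w c → Tendsto (fun N => fderiv ℝ (S N) x w) atTop (𝓝 (w + c • ev 1))

theorem exists_sq : ∃ S B, P.Sq S B := by
  obtain ⟨L, hL⟩ := P.mm_lip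
  obtain ⟨S, h1, h2, h3, h4, h5⟩ := Vale.Agent.P073.LR.specColl P.KK (ev 1) P.mm L P.isCompact_KK hL
    P.tsupport_mm P.mm_mono
  exact ⟨S, _, h1, h2, h3, h4, h5⟩

theorem Sq.tendsto {S : ℕ → V → V} {B : ℝ} (h : P.Sq S B) (x : V) :
    Tendsto (fun N => S N x) atTop (𝓝 (x + P.mm x • ev 1)) := by
  rw [tendsto_iff_norm_sub_tendsto_zero]
  exact squeeze_zero (fun _ => norm_nonneg _) (fun N => h.close N x)
    tendsto_one_div_add_atTop_nhds_zero_nat

theorem countable_aff (x w : V) : {s : ℝ | ¬ ∃ c, AffNear P.mm (x + s • w) w c}.Countable := by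
  have h1 : (⋃ i ∈ (Finset.Ico P.i0 P.i1 : Finset ℤ),
      {s : ℝ | ¬ ∃ c, AffNear (P.mui i) (x + s • w) w c}).Countable :=
    (Finset.countable_toSet _).biUnion fun i _ => (P.mui_spec i).2.2.2.2 x w
  refine h1.mono fun s hs => ?_
  by_contra hcon
  apply hs
  refine affNear_sum _ fun i hi => ?_
  by_contra hc
  exact hcon (mem_iUnion₂.2 ⟨i, hi, hc⟩)

/-- the region in which the collapse function depends on `x 1` only -/
def Rg : Set V := {x | ∀ l, l ≠ 1 → |x l - P.q l| < P.r + P.a}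

theorem isOpen_Rg : IsOpen P.Rg := by
  have : P.Rg = ⋂ l : Fin 3, {x : V | l ≠ 1 → |x l - P.q l| < P.r + P.a} := by
    ext x; simp [Rg]
  rw [this]
  refine isOpen_iInter_of_finite fun l => ?_
  by_cases h : l = 1
  · simp [h]
  · simp only [ne_eq, h, not_false_eq_true, true_implies]
    exact isOpen_lt (by fun_prop) continuous_const

theorem core_sub_Rg : core P.v P.n ⊆ P.Rg := by
  rw [core_eq]
  intro x hx l _
  have := hx l
  have := P.a_pos
  linarith

/-- the collapse function in one variable, all strips -/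
noncomputable def gg (s : ℝ) : ℝ := ∑ i ∈ Finset.Ico P.i0 P.i1, P.g (s - P.d i)

theorem mm_eq_gg {x : V} (hx : x ∈ P.Rg) : P.mm x = P.gg (x 1) :=
  Finset.sum_congr rfl fun i _ => P.mui_eq_g i fun l hl => (hx l hl).le

/-- directions different from `1` -/
theorem aff_of_Rg {x w : V} (hx : x ∈ P.Rg) (hw : w 1 = 0) : AffNear P.mm x w 0 := by
  obtain ⟨ε, hε, hb⟩ := Metric.isOpen_iff.1 P.isOpen_Rg x hx
  have hw0 := norm_nonneg w
  refine ⟨min (ε / 2) (ε / 2 / (‖w‖ + 1)), lt_min (half_pos hε) (by positivity),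
    fun z hz s hs => ?_⟩
  have hz1 : ‖z - x‖ < ε / 2 := hz.trans_le (min_le_left _ _)
  have hs1 : |s| < ε / 2 / (‖w‖ + 1) := hs.trans_le (min_le_right _ _)
  have hz2 : z ∈ P.Rg := hb (by rw [mem_ball, dist_eq_norm]; linarith)
  have hz3 : z + s • w ∈ P.Rg := by
    apply hb
    rw [mem_ball, dist_eq_norm]
    have h1 : z + s • w - x = (z - x) + s • w := by abel
    have h2 : ‖s • w‖ ≤ ε / 2 := by
      rw [norm_smul, Real.norm_eq_abs]
      rw [lt_div_iff₀ (by positivity)] at hs1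
      nlinarith [abs_nonneg s]
    rw [h1]
    linarith [norm_add_le (z - x) (s • w)]
  rw [P.mm_eq_gg hz2, P.mm_eq_gg hz3]
  simp [hw]

/-- direction `1` in the main part of a strip -/
theorem aff_main {x : V} {i : ℤ} (hi : i ∈ Finset.Ico P.i0 P.i1) (hx : x ∈ P.Rg)
    (hxi : |x 1 - P.d i| < P.k * P.a) : AffNear P.mm x (ev 1) (-1) := by
  have hopen : IsOpen (P.Rg ∩ {x : V | |x 1 - P.d i| < P.k * P.a}) :=
    P.isOpen_Rg.inter (isOpen_lt (by fun_prop) continuous_const)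
  obtain ⟨ε, hε, hb⟩ := Metric.isOpen_iff.1 hopen x ⟨hx, hxi⟩
  have key : ∀ z : V, z ∈ P.Rg → |z 1 - P.d i| < P.k * P.a → P.mm z = -(z 1 - P.d i) := by
    intro z hz hzi
    have h1 : |z 1 - P.d i| < P.t / 2 := by have := P.ka; have := P.a_pos; linarith
    rw [P.mm_of_strip h1 hi, P.mui_eq_g i fun l hl => (hz l hl).le, P.g_main hzi.le]
  refine ⟨ε / 2, half_pos hε, fun z hz s hs => ?_⟩
  have hz1 := hb (by rw [mem_ball, dist_eq_norm]; linarith : z ∈ ball x ε)
  have hz2 : z + s • ev 1 ∈ ball x ε := by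
    rw [mem_ball, dist_eq_norm]
    have h1 : z + s • ev 1 - x = (z - x) + s • ev 1 := by abel
    have h2 : ‖s • (ev 1 : V)‖ < ε / 2 := by
      rw [norm_smul, Real.norm_eq_abs]
      have : ‖(ev 1 : V)‖ = 1 := by unfold ev; rw [Pi.norm_single, norm_one]
      rw [this, mul_one]; exact hs
    rw [h1]
    linarith [norm_add_le (z - x) (s • (ev 1 : V))]
  have hz3 := hb hz2
  rw [key z hz1.1 hz1.2, key _ hz3.1 hz3.2, add_ev_one]
  ring

/-- direction `1` in a layer -/
theorem aff_layer {x : V} {i : ℤ} (hi : i ∈ Finset.Ico P.i0 P.i1) (hx : x ∈ P.Rg)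
    (h1 : P.k * P.a < |x 1 - P.d i|) (h2 : |x 1 - P.d i| < P.t / 2) :
    AffNear P.mm x (ev 1) P.k := by
  have hcont : Continuous fun x : V => |x 1 - P.d i| := by fun_prop
  have hopen : IsOpen (P.Rg ∩ {x : V | P.k * P.a < |x 1 - P.d i| ∧ |x 1 - P.d i| < P.t / 2}) :=
    P.isOpen_Rg.inter ((isOpen_lt continuous_const hcont).and
      (isOpen_lt hcont continuous_const))
  obtain ⟨ε, hε, hb⟩ := Metric.isOpen_iff.1 hopen x ⟨hx, h1, h2⟩
  have hka : 0 < P.k * P.a := mul_pos (by exact_mod_cast P.k_pos) P.a_pos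
  have hev : ∀ s : ℝ, ‖s • (ev 1 : V)‖ = |s| := fun s => by
    rw [norm_smul, Real.norm_eq_abs]
    have : ‖(ev 1 : V)‖ = 1 := by unfold ev; rw [Pi.norm_single, norm_one]
    rw [this, mul_one]
  refine ⟨min (ε / 2) (P.k * P.a / 2), lt_min (half_pos hε) (half_pos hka), fun z hz s hs => ?_⟩
  have hz0 : ‖z - x‖ < ε / 2 := hz.trans_le (min_le_left _ _)
  have hz0' : ‖z - x‖ < P.k * P.a / 2 := hz.trans_le (min_le_right _ _)
  have hs0 : |s| < ε / 2 := hs.trans_le (min_le_left _ _)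
  have hs0' : |s| < P.k * P.a / 2 := hs.trans_le (min_le_right _ _)
  have hz1 := hb (by rw [mem_ball, dist_eq_norm]; linarith : z ∈ ball x ε)
  have hz2 : z + s • ev 1 ∈ ball x ε := by
    rw [mem_ball, dist_eq_norm]
    have h1 : z + s • ev 1 - x = (z - x) + s • ev 1 := by abel
    rw [h1]
    have := hev s
    linarith [norm_add_le (z - x) (s • (ev 1 : V))]
  have hz3 := hb hz2
  have hzx : |z 1 - x 1| < P.k * P.a / 2 := by
    have := norm_le_pi_norm (z - x) 1
    rw [Real.norm_eq_abs] at this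
    exact this.trans_lt hz0'
  have hk : (P.mm z = P.mui i z) := P.mm_of_strip hz1.2.2 hi
  have hk' : (P.mm (z + s • ev 1) = P.mui i (z + s • ev 1)) := P.mm_of_strip hz3.2.2 hi
  rw [hk, hk', P.mui_eq_g i fun l hl => (hz1.1 l hl).le, P.mui_eq_g i fun l hl => (hz3.1 l hl).le]
  rw [add_ev_one]
  have e3 : P.k * P.a < |(z + s • ev 1) 1 - P.d i| ∧ |(z + s • ev 1) 1 - P.d i| < P.t / 2 := hz3.2
  rw [add_ev_one] at e3
  obtain ⟨a1, a2⟩ := hz1.2
  obtain ⟨b1, b2⟩ := e3
  obtain ⟨c1, c2⟩ := abs_lt.1 hzx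
  obtain ⟨d1, d2⟩ := abs_lt.1 hs0'
  rcases lt_abs.1 h1 with hpos | hneg
  · have p1 : 0 < z 1 - P.d i := by linarith
    have p2 : 0 < z 1 + s - P.d i := by linarith
    rw [abs_of_pos p1] at a1 a2
    rw [abs_of_pos p2] at b1 b2
    rw [P.g_pos a1.le a2.le, P.g_pos b1.le b2.le]
    ring
  · have p1 : z 1 - P.d i < 0 := by linarith
    have p2 : z 1 + s - P.d i < 0 := by linarith
    rw [abs_of_neg p1] at a1 a2
    rw [abs_of_neg p2] at b1 b2
    rw [P.g_neg a1.le a2.le, P.g_neg b1.le b2.le]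
    ring

end Par

end P073.LOC865
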