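import Vale.Agent.P073.LOC865.Bounds

/-!
# P073, block LOC, rank 1: the squares of the strips
-/

open Set Metric Topology Filter MeasureTheory
open scoped ENNReal ContDiff

namespace P073.LOC865

open Vale.Agent.P073.St (V IsDiffeo)
open Vale.Agent.P073.SQ (ev cube SuppDiffeo dE faceE edgesE)
open Vale.Agent.P073.AB (Idx pt edge eInt squ sqE)
open Vale.Agent.P073.AB.P86 (sc)
open Vale.Agent.P073.AB.S293 (gam eInt_mono eInt_const_mul eInt_const eInt_eq eInt_add)
open Vale.Agent.P073.LR (nu mu lam AffNear)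
open Vale.Agent.P073.LOC (core Q1 mid gInt)

namespace Par

variable (P : Par) {S : ℕ → V → V} {B p δ : ℝ} {L : V →L[ℝ] V} {G : V → V}

theorem upd_mem {u : Fin 3 → ℤ} (hu : squ P.v ((P.M, u), 2) ⊆ core P.v P.n) {x : V}
    (hx : x ∈ cube (sc P.v ((P.M, u), 2)) (1 / 2 / 2 ^ P.M)) :
    Function.update x 2 (sc P.v ((P.M, u), 2) 2) ∈ core P.v P.n := by
  apply hu
  rw [← Vale.Agent.P073.AB.P86.mem_squ_iff]
  have hp : (0:ℝ) < 1 / 2 / 2 ^ P.M := by positivity
  refine ⟨Function.update_self .., fun l => ?_⟩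
  by_cases hl : l = 2
  · subst hl
    rw [Function.update_self, sub_self, abs_zero]
    exact hp.le
  · rw [Function.update_of_ne hl]; exact hx l

theorem isCompact_core : IsCompact (core P.v P.n) := by
  have : core P.v P.n = closedBall P.q P.r := by
    rw [core_eq]
    ext x
    rw [mem_closedBall, dist_pi_le_iff P.r_pos.le]
    rfl
  rw [this]
  exact isCompact_closedBall _ _

theorem core_sub_Q1 : core P.v P.n ⊆ Q1 := P.core_sub_KK.trans P.KK_sub

theorem volume_cube_ne (c : V) {ρ : ℝ} (hρ : 0 ≤ ρ) : volume (cube c ρ) ≠ ⊤ :=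
  (Vale.Agent.P073.SQ.isCompact_cube c hρ).measure_lt_top.ne

/-- the squares of the strips -/
theorem strip_bound (D : Dat P p δ L G) (h : P.Sq S B) {u : Fin 3 → ℤ}
    (hu : squ P.v ((P.M, u), 2) ⊆ core P.v P.n) (hR0 : ¬ P.R ∣ u 1) (hR1 : ¬ P.R ∣ u 1 + 1) :
    ∀ᶠ N in atTop, ∑ j ∈ Finset.univ.erase (2 : Fin 3),
      ∫⁻ x in cube (sc P.v ((P.M, u), 2)) (1 / 2 / 2 ^ P.M), ENNReal.ofReal (‖fderiv ℝ (G ∘ S N)
        (Function.update x 2 (sc P.v ((P.M, u), 2) 2)) (ev j) - L (ev j)‖ ^ p) ≤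
      ENNReal.ofReal (P.a ^ 2 * δ + 2 * δ) := by
  have hp0 : 0 < p := by linarith [D.hp1]
  have ha := P.a_pos
  have hR := P.R_pos
  have hRk := P.R_eq
  have hk1 : (1:ℝ) ≤ P.k := by exact_mod_cast P.k_pos
  set s : Idx × Fin 3 := ((P.M, u), 2) with hs
  set σ : ℝ := 1 / 2 / 2 ^ P.M with hσ
  have hσ0 : 0 < σ := by rw [hσ]; positivity
  have hσa : 2 * σ = P.a := by rw [hσ]; unfold a; ring
  set X : Set V := cube (sc P.v s) σ with hX
  have hXm : MeasurableSet X := (Vale.Agent.P073.SQ.isClosed_cube _ _).measurableSet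
  have hXt : volume X ≠ ⊤ := volume_cube_ne _ hσ0.le
  set E : V → V := fun x => Function.update x 2 (sc P.v s 2) with hE
  have hEm : Measurable E := by
    rw [hE, measurable_pi_iff]
    intro l
    by_cases hl : l = 2
    · subst hl; simp
    · simp only [Function.update_of_ne hl]; exact measurable_pi_apply l
  have hEc : ∀ x ∈ X, E x ∈ core P.v P.n := fun x hx => P.upd_mem hu hx
  -- bounds for the index
  have hc0 : 0 ≤ σ := hσ0.le
  have hbd : P.i0 * P.R ≤ u 1 ∧ u 1 + 1 ≤ P.i1 * P.R := by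
    have h1 : sc P.v s ∈ X := fun l => by simp [hc0]
    have h2 : Function.update (sc P.v s) 1 (sc P.v s 1 + σ) ∈ X := fun l => by
      by_cases hl : l = 1
      · subst hl; simp [abs_of_pos hσ0]
      · rw [Function.update_of_ne hl]; simp [hc0]
    have h3 : Function.update (sc P.v s) 1 (sc P.v s 1 - σ) ∈ X := fun l => by
      by_cases hl : l = 1
      · subst hl; simp [abs_of_pos hσ0]
      · rw [Function.update_of_ne hl]; simp [hc0]
    have h4 := (P.core_fine.1 (hEc _ h2) 1).2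
    have h5 := (P.core_fine.1 (hEc _ h3) 1).1
    have e1 : sc P.v s 1 = P.v 1 + (u 1 + 1 / 2) * P.a := by
      rw [hs]
      simp only [sc, show (1 : Fin 3) ≠ 2 by decide, if_false]
      unfold a; ring
    simp only [hE, Function.update_of_ne (show (1:Fin 3) ≠ 2 by decide), Function.update_self] at h4 h5
    rw [e1] at h4 h5
    have e2 : P.v 1 + (u 1 + 1 / 2) * P.a + σ = P.v 1 + ((u 1 + 1 : ℤ) : ℝ) * P.a := by
      push_cast; rw [← hσa]; ring
    have e3 : P.v 1 + (u 1 + 1 / 2) * P.a - σ = P.v 1 + (u 1 : ℝ) * P.a := by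
      rw [← hσa]; ring
    rw [e2] at h4
    rw [e3] at h5
    exact ⟨P.cmp.1 h5, P.cmp.1 h4⟩
  have hi := P.strip_mem hbd.1 (show u 1 < P.i1 * P.R by have := hbd.2; omega)
  have hdm := P.div_mod (u 1)
  have hr0 : 0 ≤ u 1 % P.R := Int.emod_nonneg _ hR.ne'
  have hr2 : u 1 % P.R < P.R := Int.emod_lt_of_pos _ hR
  have hr1 : 1 ≤ u 1 % P.R := by
    rcases hr0.lt_or_eq with h4 | h4
    · exact h4
    · exact absurd (Int.dvd_of_emod_eq_zero h4.symm) hR0
  have hr3 : u 1 % P.R ≤ P.R - 2 := by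
    by_contra hcon
    have h4 : u 1 % P.R = P.R - 1 := by omega
    apply hR1
    refine ⟨u 1 / P.R + 1, ?_⟩
    rw [h4] at hdm
    linarith [mul_comm (u 1 / P.R) P.R]
  set i := u 1 / P.R with hi'
  set r := u 1 % P.R with hr'
  have hr1' : (1:ℝ) ≤ r := by exact_mod_cast hr1
  have hr3' : (r:ℝ) ≤ 2 * P.k := by
    have : r ≤ 2 * P.k := by omega
    exact_mod_cast this
  have hu' : (u 1 : ℝ) = i * P.R + r := by
    exact_mod_cast congrArg (fun z : ℤ => (z : ℝ)) hdm
  have e1 : sc P.v s 1 = P.v 1 + (u 1 + 1 / 2) * P.a := by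
    rw [hs]
    simp only [sc, show (1 : Fin 3) ≠ 2 by decide, if_false]
    unfold a; ring
  -- distance to the middle line
  have hdist : ∀ x ∈ X, |x 1 - P.d i| ≤ P.k * P.a := by
    intro x hx
    have h1 := abs_le.1 (hx 1)
    rw [e1] at h1
    have h2 : x 1 - P.d i = (x 1 - (P.v 1 + (u 1 + 1 / 2) * P.a)) +
        (P.v 1 + (u 1 + 1 / 2) * P.a - P.d i) := by ring
    rw [h2, P.sub_d, hu', abs_le]
    have b1 : (1:ℝ) * P.a ≤ r * P.a := mul_le_mul_of_nonneg_right hr1' ha.le
    have b2 : (r:ℝ) * P.a ≤ 2 * P.k * P.a := mul_le_mul_of_nonneg_right hr3' ha.le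
    constructor <;> nlinarith [h1.1, h1.2]
  have hlt : ∀ x ∈ X, |x 1 - P.d i| < P.t / 2 := fun x hx => by
    have := hdist x hx
    have := P.ka
    linarith
  have hmm : ∀ x ∈ X, E x + P.mm (E x) • ev 1 = Function.update (E x) 1 (P.d i) := by
    intro x hx
    have hx1 : E x 1 = x 1 := by simp [hE]
    have h1 : P.mm (E x) = -(x 1 - P.d i) := by
      rw [P.mm_of_strip (by rw [hx1]; exact hlt x hx) hi,
        (P.mui_spec i).2.2.2.1 (E x) (by rw [hx1]; exact hdist x hx)
          (fun l hl => (P.core_sub_Rg (hEc x hx) l hl).le), hx1]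
    rw [h1]
    funext l
    by_cases hl : l = 1
    · subst hl
      rw [add_ev_one, Function.update_self, hx1]; ring
    · rw [add_ev_of_ne _ _ hl, Function.update_of_ne hl]
  -- direction 0
  have c0 : ∀ᵐ x ∂(volume.restrict X), AffNear P.mm (E x) (ev 0) 0 := by
    filter_upwards [ae_restrict_mem hXm] with x hx
    exact P.aff_of_Rg (P.core_sub_Rg (hEc x hx)) (by simp [ev])
  have t0 := P.tendsto_gen h hp0 D.smooth hEm hXm hXt P.isCompact_core P.core_sub_Q1 hEc (ev 0)
    (L (ev 0)) c0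
  have l0 : ∫⁻ x in X, ENNReal.ofReal (‖fderiv ℝ G (E x + P.mm (E x) • ev 1)
      (ev 0 + (0:ℝ) • ev 1) - L (ev 0)‖ ^ p) ≤ ENNReal.ofReal (P.a ^ 2 * δ) := by
    have h1 : ∫⁻ x in X, ENNReal.ofReal (‖fderiv ℝ G (E x + P.mm (E x) • ev 1)
        (ev 0 + (0:ℝ) • ev 1) - L (ev 0)‖ ^ p) = ∫⁻ x in X, (fun y => ENNReal.ofReal
        (‖fderiv ℝ G y (ev 0) - L (ev 0)‖ ^ p)) (Function.update (E x) 1 (P.d i)) := by
      refine setLIntegral_congr_fun hXm fun x hx => ?_
      rw [hmm x hx, zero_smul, add_zero]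
    have hHm := measurable_fd p G (ev 0) (L (ev 0))
    rw [h1, hX, hE, Vale.Agent.P073.SQ.specEdge (sc P.v s) σ 2 1 0 (P.d i) _ hσ0 hHm (by decide)
      (by decide) (by decide), hσa]
    have hut : P.tg (u 1) = i * P.R + (P.k + 1) := by
      unfold tg; rw [if_neg hR0]
    have hedge : edge P.v ((P.M, Function.update u 1 (P.tg (u 1))), 0) ⊆ core P.v P.n := by
      rw [edge_core]
      have hcu : edge P.v ((P.M, u), 0) ⊆ core P.v P.n := by
        refine (Vale.Agent.P073.AB.S308.edge_sub_squ (s := s) ?_).trans hu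
        exact ⟨rfl, (show (0 : Fin 3) ≠ 2 by decide), rfl, rfl, fun j _ _ => Or.inl rfl⟩
      have hg := P.edge_core.1 hcu
      refine ⟨fun l => ?_, ?_⟩
      · by_cases hl : l = 1
        · subst hl
          rw [Function.update_self]
          exact P.tg_mem (hg.1 1).1 (hg.1 1).2
        · rw [Function.update_of_ne hl]; exact hg.1 l
      · rw [Function.update_of_ne (by decide)]; exact hg.2
    have hf := D.fine ((P.M, Function.update u 1 (P.tg (u 1))), 0) rfl hedge
    rw [ENNReal.ofReal_mul (by positivity)]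
    refine mul_le_mul' le_rfl (le_trans (le_of_eq ?_) hf)
    rw [eInt_eq P.v _ hHm]
    have g1 : sc P.v s 0 - σ = P.v 0 + (Function.update u 1 (P.tg (u 1)) 0 : ℝ) / 2 ^ P.M := by
      rw [Function.update_of_ne (by decide), hs, hσ]
      simp only [sc, show (0 : Fin 3) ≠ 2 by decide, if_false]
      ring
    have g2 : sc P.v s 0 + σ =
        P.v 0 + ((Function.update u 1 (P.tg (u 1)) 0 : ℝ) + 1) / 2 ^ P.M := by
      rw [Function.update_of_ne (by decide), hs, hσ]
      simp only [sc, show (0 : Fin 3) ≠ 2 by decide, if_false]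
      ring
    rw [g1, g2]
    refine lintegral_congr fun y => ?_
    suffices hpt : (Function.update (Function.update (sc P.v s) 1 (P.d i)) 0 y : V) =
        Function.update (pt P.v P.M (Function.update u 1 (P.tg (u 1)))) 0 y by
      show ENNReal.ofReal (‖fderiv ℝ G (Function.update (Function.update (sc P.v s) 1 (P.d i)) 0 y)
        (ev 0) - L (ev 0)‖ ^ p) = _
      rw [hpt]
    funext l
    by_cases hl : l = 0
    · subst hl; simp
    · rw [Function.update_of_ne hl, Function.update_of_ne hl]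
      by_cases hl1 : l = 1
      · subst hl1
        rw [Function.update_self]
        unfold pt
        rw [Function.update_self, hut]
        have := P.sub_d i ((i * P.R : ℝ) + (P.k + 1))
        rw [sub_self, zero_mul] at this
        have e5 : (((i * P.R + (P.k + 1) : ℤ) : ℝ)) / 2 ^ P.M = ((i * P.R : ℝ) + (P.k + 1)) * P.a := by
          unfold a; push_cast; ring
        rw [e5]; linarith
      · have hl2 : l = 2 := by
          have : ∀ l : Fin 3, l ≠ 0 → l ≠ 1 → l = 2 := by decide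
          exact this l hl hl1
        subst hl2
        rw [Function.update_of_ne (by decide)]
        unfold pt
        rw [Function.update_of_ne (by decide), hs]
        simp only [sc, if_true]
  -- direction 1
  have c1 : ∀ᵐ x ∂(volume.restrict X), AffNear P.mm (E x) (ev 1) (-1) := by
    have hne : ∀ᵐ x : V, x 1 ≠ P.d i + P.k * P.a ∧ x 1 ≠ P.d i - P.k * P.a :=
      (Vale.Agent.P073.SQ.ae_coord_ne 1 _).and (Vale.Agent.P073.SQ.ae_coord_ne 1 _)
    filter_upwards [ae_restrict_mem hXm, ae_restrict_of_ae hne] with x hx hx'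
    have hx1 : E x 1 = x 1 := by simp [hE]
    refine P.aff_main hi (P.core_sub_Rg (hEc x hx)) ?_
    rw [hx1]
    refine lt_of_le_of_ne (hdist x hx) fun hcon => ?_
    rcases abs_eq (by positivity) |>.1 hcon with h4 | h4
    · exact hx'.1 (by linarith)
    · exact hx'.2 (by linarith)
  have t1 := P.tendsto_gen h hp0 D.smooth hEm hXm hXt P.isCompact_core P.core_sub_Q1 hEc (ev 1)
    (L (ev 1)) c1
  have l1 : ∫⁻ x in X, ENNReal.ofReal (‖fderiv ℝ G (E x + P.mm (E x) • ev 1)
      (ev 1 + (-1:ℝ) • ev 1) - L (ev 1)‖ ^ p) ≤ ENNReal.ofReal 0 := by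
    have e1 : (ev 1 : V) + (-1:ℝ) • ev 1 = 0 := by
      rw [neg_one_smul, add_neg_cancel]
    simp only [e1, map_zero, D.L1, sub_zero, norm_zero, Real.zero_rpow hp0.ne', ENNReal.ofReal_zero,
      lintegral_const, zero_mul, le_refl]
  have hδ0 := D.δ0
  filter_upwards [eventually_of_lim t0 (by positivity) hδ0 l0, eventually_of_lim t1 le_rfl hδ0 l1]
    with N h0 h1
  have hsum : (Finset.univ.erase (2 : Fin 3)) = {0, 1} := by decide
  rw [hsum, Finset.sum_pair (by decide)]
  calc _ ≤ ENNReal.ofReal (P.a ^ 2 * δ + δ) + ENNReal.ofReal (0 + δ) := add_le_add h0 h1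
    _ = ENNReal.ofReal (P.a ^ 2 * δ + 2 * δ) := by
        rw [← ENNReal.ofReal_add (by positivity) (by positivity)]
        congr 1; ring

end Par

end P073.LOC865
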